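import Vale.Agent.P160.H462.Count

/-! # P160 / H462: asymptotics of the union bounds and of the change of measure -/

open Finset Filter Topology

namespace Vale.Agent.P160.H462

/-- events of uniform probability at most `(1/2 + o(1)) ^ n` -/
def Small (E : ∀ n, Set (Bits n)) : Prop :=
  ∀ ε : ℝ, 0 < ε → ∀ᶠ n : ℕ in atTop, prob (0 : Sym2 (Fin n) → ℝ) (E n) ≤ Real.exp (-((Real.log 2 - ε) * n))

theorem log2_pos : 0 < Real.log 2 := Real.log_pos (by norm_num)

theorem tendsto_cast_atTop (c : ℝ) (hc : 0 < c) (x : ℝ) : ∀ᶠ n : ℕ in atTop, x ≤ c * n := by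
  have h := (tendsto_natCast_atTop_atTop (R := ℝ)).const_mul_atTop hc
  exact h.eventually_ge_atTop x

/-! ## minors -/

theorem badMinor_le (M : ∀ n, Bits n → Matrix (Fin n) (Fin n) ℤ) (hM : Nat' M)
    (hS : Small fun n => {b | (M n b).det = 0}) (β : ℝ) (h0 : 0 ≤ β) (h1 : β ≤ 1 / 2) (ε : ℝ) (hε : 0 < ε) :
    ∀ᶠ n : ℕ in atTop, prob (0 : Sym2 (Fin n) → ℝ) (BadMinor (M n) β) ≤
      Real.exp (-(((1 - β) * Real.log 2 - Real.binEntropy β - ε) * n)) := by
  classical
  have hl := log2_pos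
  set e : ℝ := min ε (Real.log 2) with he
  have he0 : 0 < e := lt_min hε hl
  have heε : e ≤ ε := min_le_left _ _
  have hel : e ≤ Real.log 2 := min_le_right _ _
  obtain ⟨m₀, hm₀⟩ := eventually_atTop.1 (hS e he0)
  filter_upwards [tendsto_cast_atTop (1 / 2) (by norm_num) m₀] with n hn
  have hn0 : (0 : ℝ) ≤ n := Nat.cast_nonneg n
  set S := univ.filter fun T : Finset (Fin n) => (1 - β) * n ≤ (T.card : ℝ) with hSdef
  have hset : BadMinor (M n) β = {b | ∃ T ∈ S, b ∈ {b | (prin (M n b) T).det = 0}} := by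
    ext b
    constructor
    · rintro ⟨T, h2, h3⟩
      exact ⟨T, mem_filter.2 ⟨mem_univ _, h2⟩, h3⟩
    · rintro ⟨T, h2, h3⟩
      exact ⟨T, (mem_filter.1 h2).2, h3⟩
  have hT : ∀ T ∈ S, prob (0 : Sym2 (Fin n) → ℝ) {b | (prin (M n b) T).det = 0} ≤
      Real.exp (-((Real.log 2 - e) * ((1 - β) * n))) := by
    intro T hT
    have h2 := (mem_filter.1 hT).2
    have h3 : m₀ ≤ T.card := by
      have : (m₀ : ℝ) ≤ T.card := by nlinarith
      exact_mod_cast this
    rw [prob_prin M hM T]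
    refine (hm₀ _ h3).trans (Real.exp_le_exp.2 ?_)
    have : (Real.log 2 - e) * ((1 - β) * n) ≤ (Real.log 2 - e) * T.card :=
      mul_le_mul_of_nonneg_left h2 (by linarith)
    linarith
  have hcard : (S.card : ℝ) ≤ Real.exp (n * Real.binEntropy β) := by
    rcases h0.eq_or_lt with hb | hb
    · rw [← hb, Real.binEntropy_zero, mul_zero, Real.exp_zero]
      have h4 : S ⊆ {univ} := by
        intro T hT
        have h2 := (mem_filter.1 hT).2
        rw [← hb, sub_zero, one_mul] at h2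
        have h3 : n ≤ T.card := by exact_mod_cast h2
        rw [mem_singleton, ← Finset.card_eq_iff_eq_univ, Fintype.card_fin]
        have h5 := card_le_univ T
        rw [Fintype.card_fin] at h5
        omega
      have h5 := card_le_card h4
      rw [card_singleton] at h5
      exact_mod_cast h5
    · exact card_large_entropy n β hb h1
  rw [hset]
  refine (prob_biUnion_le S _ _ hT).trans ?_
  calc (S.card : ℝ) * Real.exp (-((Real.log 2 - e) * ((1 - β) * n)))
      ≤ Real.exp (n * Real.binEntropy β) * Real.exp (-((Real.log 2 - e) * ((1 - β) * n))) :=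
        mul_le_mul_of_nonneg_right hcard (Real.exp_pos _).le
    _ = Real.exp (n * Real.binEntropy β + -((Real.log 2 - e) * ((1 - β) * n))) := (Real.exp_add _ _).symm
    _ ≤ _ := by
        refine Real.exp_le_exp.2 ?_
        have h5 : e * ((1 - β) * n) ≤ ε * n := by
          have h6 : (1 - β) * n ≤ n := by nlinarith
          have h7 : 0 ≤ (1 - β) * n := by nlinarith
          calc e * ((1 - β) * n) ≤ ε * ((1 - β) * n) := mul_le_mul_of_nonneg_right heε h7
            _ ≤ ε * n := mul_le_mul_of_nonneg_left h6 hε.le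
        nlinarith

/-! ## changes and deletions -/

theorem card_sym2_le (n : ℕ) : (Fintype.card (Sym2 (Fin n)) : ℝ) + 1 ≤ ((n : ℝ) + 1) ^ 2 := by
  rw [Sym2.card, Fintype.card_fin]
  have h : ((n + 1).choose 2 : ℕ) ≤ n * (n + 1) := by
    rw [Nat.choose_two_right, Nat.add_sub_cancel]
    exact (Nat.div_le_self _ _).trans (le_of_eq (mul_comm _ _))
  have h' : (((n + 1).choose 2 : ℕ) : ℝ) ≤ n * (n + 1) := by exact_mod_cast h
  have hn : (0 : ℝ) ≤ n := Nat.cast_nonneg n
  nlinarith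

theorem fragile_small (M : ∀ n, Bits n → Matrix (Fin n) (Fin n) ℤ) (hM : Nat' M)
    (hS : Small fun n => {b | (M n b).det = 0}) (k l : ℕ → ℕ)
    (hk : Tendsto (fun n : ℕ => (k n : ℝ) * Real.log n / n) atTop (𝓝 0))
    (hl : Tendsto (fun n : ℕ => (l n : ℝ) / n) atTop (𝓝 0)) :
    Small fun n => Fragile (M n) (k n) (l n) := by
  intro ε hε
  have hl2 := log2_pos
  -- a small `β`
  obtain ⟨β, hβ0, hβ1, hβ⟩ : ∃ β : ℝ, 0 < β ∧ β ≤ 1 / 2 ∧ β * Real.log 2 + Real.binEntropy β ≤ ε / 3 := by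
    have hc : Tendsto (fun β : ℝ => β * Real.log 2 + Real.binEntropy β) (𝓝 0) (𝓝 0) := by
      have h1 : Continuous fun β : ℝ => β * Real.log 2 + Real.binEntropy β :=
        (continuous_id.mul continuous_const).add Real.binEntropy_continuous
      have h2 := h1.tendsto 0
      simpa using h2
    have h3 := (hc.eventually (gt_mem_nhds (show (0 : ℝ) < ε / 3 by positivity)))
    have h4 : ∀ᶠ β : ℝ in 𝓝[>] 0, β * Real.log 2 + Real.binEntropy β < ε / 3 := h3.filter_mono nhdsWithin_le_nhds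
    have h5 : ∀ᶠ β : ℝ in 𝓝[>] 0, β ∈ Set.Ioc (0 : ℝ) (1 / 2) := Ioc_mem_nhdsGT (by norm_num)
    obtain ⟨β, h6, h7⟩ := (h4.and h5).exists
    exact ⟨β, h7.1, h7.2, h6.le⟩
  have e1 := badMinor_le M hM hS β hβ0.le hβ1 (ε / 3) (by positivity)
  have e2 : ∀ᶠ n : ℕ in atTop, (l n : ℝ) / n < β := hl.eventually (gt_mem_nhds hβ0)
  have e3 : ∀ᶠ n : ℕ in atTop, (k n : ℝ) * Real.log n / n < ε / 12 :=
    hk.eventually (gt_mem_nhds (by positivity))
  filter_upwards [e1, e2, e3, eventually_ge_atTop 2] with n h1 h2 h3 hn2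
  have hn : (2 : ℝ) ≤ n := by exact_mod_cast hn2
  have hn0 : (0 : ℝ) < n := by linarith
  have hsub : Fragile (M n) (k n) (l n) ⊆
      {b | ∃ b' : Bits n, (univ.filter fun e => b e ≠ b' e).card ≤ k n ∧ b' ∈ BadMinor (M n) β} := by
    rintro b ⟨b', h4, T, h5, h6⟩
    refine ⟨b', h4, T, ?_, h6⟩
    have h7 : (n : ℝ) ≤ T.card + l n := by exact_mod_cast h5
    have h8 : (l n : ℝ) ≤ β * n := by
      rw [div_lt_iff₀ hn0] at h2
      exact h2.le
    linarith
  refine (prob_zero_mono hsub).trans ((prob_change_le _ _).trans ?_)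
  have h4 : ((Fintype.card (Sym2 (Fin n)) : ℝ) + 1) ^ k n ≤ Real.exp (ε / 3 * n) := by
    have h5 : (Fintype.card (Sym2 (Fin n)) : ℝ) + 1 ≤ (n : ℝ) ^ 4 := by
      refine (card_sym2_le n).trans ?_
      have : (n : ℝ) + 1 ≤ (n : ℝ) ^ 2 := by nlinarith
      calc ((n : ℝ) + 1) ^ 2 ≤ ((n : ℝ) ^ 2) ^ 2 := pow_le_pow_left₀ (by positivity) this 2
        _ = _ := by ring
    calc ((Fintype.card (Sym2 (Fin n)) : ℝ) + 1) ^ k n ≤ ((n : ℝ) ^ 4) ^ k n :=
          pow_le_pow_left₀ (by positivity) h5 _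
      _ = Real.exp (4 * (k n * Real.log n)) := by
          rw [← pow_mul, ← Real.exp_log hn0, ← Real.exp_nat_mul, Real.exp_log hn0]
          congr 1
          push_cast
          ring
      _ ≤ _ := by
          refine Real.exp_le_exp.2 ?_
          rw [div_lt_iff₀ hn0] at h3
          linarith
  calc ((Fintype.card (Sym2 (Fin n)) : ℝ) + 1) ^ k n * prob (0 : Sym2 (Fin n) → ℝ) (BadMinor (M n) β)
      ≤ Real.exp (ε / 3 * n) * Real.exp (-(((1 - β) * Real.log 2 - Real.binEntropy β - ε / 3) * n)) :=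
        mul_le_mul h4 h1 (prob_zero_nonneg _) (Real.exp_pos _).le
    _ = Real.exp (ε / 3 * n + -(((1 - β) * Real.log 2 - Real.binEntropy β - ε / 3) * n)) :=
        (Real.exp_add _ _).symm
    _ ≤ _ := by
        refine Real.exp_le_exp.2 ?_
        have := mul_le_mul_of_nonneg_right hβ hn0.le
        nlinarith

theorem Small.union {E F : ∀ n, Set (Bits n)} (hE : Small E) (hF : Small F) : Small fun n => E n ∪ F n := by
  intro ε hε
  filter_upwards [hE (ε / 2) (by positivity), hF (ε / 2) (by positivity),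
    tendsto_cast_atTop (ε / 2) (by positivity) (Real.log 2)] with n h1 h2 h3
  refine (prob_union_le (fun e => by simp) _ _).trans ?_
  calc prob (0 : Sym2 (Fin n) → ℝ) (E n) + prob (0 : Sym2 (Fin n) → ℝ) (F n)
      ≤ 2 * Real.exp (-((Real.log 2 - ε / 2) * n)) := by linarith
    _ = Real.exp (Real.log 2) * Real.exp (-((Real.log 2 - ε / 2) * n)) := by rw [Real.exp_log (by norm_num)]
    _ = Real.exp (Real.log 2 + -((Real.log 2 - ε / 2) * n)) := (Real.exp_add _ _).symm
    _ ≤ _ := by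
        refine Real.exp_le_exp.2 ?_
        nlinarith

theorem Small.mono {E F : ∀ n, Set (Bits n)} (hE : Small E) (h : ∀ᶠ n in atTop, F n ⊆ E n) : Small F := by
  intro ε hε
  filter_upwards [hE ε hε, h] with n h1 h2
  exact (prob_zero_mono h2).trans h1

/-! ## change of measure -/

theorem Small.biased {E : ∀ n, Set (Bits n)} (hE : Small E) (δ : ∀ n, Sym2 (Fin n) → ℝ)
    (hδ : ∀ n e, |δ n e| ≤ 1) (hsum : Tendsto (fun n : ℕ => (∑ e, δ n e ^ 2) / n) atTop (𝓝 0))
    (ε : ℝ) (hε : 0 < ε) :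
    ∀ᶠ n : ℕ in atTop, prob (δ n) (E n) ≤ Real.exp (-((Real.log 2 - ε) * n)) := by
  have hl := log2_pos
  obtain ⟨r, hr⟩ := exists_nat_ge (6 * Real.log 2 / ε)
  have hr' : 2 * Real.log 2 ≤ r * (ε / 3) := by
    rw [div_le_iff₀ hε] at hr
    linarith
  have hc : (0 : ℝ) < 2 * Real.log 2 / ((r : ℝ) + 1) ^ 2 := by positivity
  filter_upwards [hE (ε / 3) (by positivity), hsum.eventually (gt_mem_nhds hc),
    tendsto_cast_atTop (ε / 3) (by positivity) (Real.log 2), eventually_ge_atTop 1] with n h1 h2 h3 hn1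
  have hn0 : (0 : ℝ) < n := by
    have : 0 < n := hn1
    exact_mod_cast this
  have h4 := prob_le_of_uniform (hδ n) (E n) (Real.exp (ε / 3 * n)) (Real.exp_pos _) r
  refine h4.trans ?_
  have h5 : ((r + 1 : ℕ) : ℝ) ^ 2 * (∑ e, δ n e ^ 2) / 2 ≤ Real.log 2 * n := by
    rw [div_lt_div_iff₀ hn0 (by positivity)] at h2
    push_cast
    nlinarith
  have h6 : Real.exp (((r + 1 : ℕ) : ℝ) ^ 2 * (∑ e, δ n e ^ 2) / 2) / Real.exp (ε / 3 * n) ^ r ≤
      Real.exp (-((Real.log 2 - 2 * ε / 3) * n)) := by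
    rw [← Real.exp_nat_mul, ← Real.exp_sub]
    refine Real.exp_le_exp.2 ?_
    have h7 := mul_le_mul_of_nonneg_right hr' hn0.le
    have h8 : 0 ≤ 2 * ε / 3 * n := by positivity
    nlinarith
  have h9 : Real.exp (ε / 3 * n) * prob (0 : Sym2 (Fin n) → ℝ) (E n) ≤ Real.exp (-((Real.log 2 - 2 * ε / 3) * n)) := by
    calc _ ≤ Real.exp (ε / 3 * n) * Real.exp (-((Real.log 2 - ε / 3) * n)) :=
          mul_le_mul_of_nonneg_left h1 (Real.exp_pos _).le
      _ = Real.exp (ε / 3 * n + -((Real.log 2 - ε / 3) * n)) := (Real.exp_add _ _).symm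
      _ ≤ _ := by
          refine Real.exp_le_exp.2 (le_of_eq ?_)
          ring
  calc _ ≤ 2 * Real.exp (-((Real.log 2 - 2 * ε / 3) * n)) := by linarith
    _ = Real.exp (Real.log 2) * Real.exp (-((Real.log 2 - 2 * ε / 3) * n)) := by rw [Real.exp_log (by norm_num)]
    _ = Real.exp (Real.log 2 + -((Real.log 2 - 2 * ε / 3) * n)) := (Real.exp_add _ _).symm
    _ ≤ _ := by
        refine Real.exp_le_exp.2 ?_
        nlinarith

/-- the limit of the `n`-th root -/
theorem tendsto_root (x : ℕ → ℝ) (h0 : ∀ n, 0 ≤ x n)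
    (hup : ∀ ε : ℝ, 0 < ε → ∀ᶠ n : ℕ in atTop, x n ≤ Real.exp (-((Real.log 2 - ε) * n)))
    (hlo : ∀ ε : ℝ, 0 < ε → ∀ᶠ n : ℕ in atTop, Real.exp (-((Real.log 2 + ε) * n)) ≤ x n) :
    Tendsto (fun n : ℕ => x n ^ (1 / (n : ℝ))) atTop (𝓝 (1 / 2)) := by
  have hhalf : (1 / 2 : ℝ) = Real.exp (-Real.log 2) := by
    rw [Real.exp_neg, Real.exp_log (by norm_num)]; norm_num
  have root : ∀ (c : ℝ) (n : ℕ), 1 ≤ n → (Real.exp (-(c * n))) ^ (1 / (n : ℝ)) = Real.exp (-c) := by
    intro c n hn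
    have hn0 : (n : ℝ) ≠ 0 := by
      have : 0 < n := hn
      positivity
    rw [← Real.exp_mul]
    congr 1
    field_simp
  rw [hhalf, tendsto_order]
  have hcont : Continuous fun ε : ℝ => Real.exp (-(Real.log 2) + ε) := by fun_prop
  constructor
  · intro a ha
    have h1 : Tendsto (fun ε : ℝ => Real.exp (-(Real.log 2) + -ε)) (𝓝 0) (𝓝 (Real.exp (-(Real.log 2)))) := by
      have h2 : Continuous fun ε : ℝ => Real.exp (-(Real.log 2) + -ε) := by fun_prop
      simpa using h2.tendsto 0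
    have h3 : ∀ᶠ ε : ℝ in 𝓝[>] 0, a < Real.exp (-(Real.log 2) + -ε) :=
      (h1.eventually (lt_mem_nhds ha)).filter_mono nhdsWithin_le_nhds
    obtain ⟨ε, h4, h5⟩ := (h3.and self_mem_nhdsWithin).exists
    filter_upwards [hlo ε h5, eventually_ge_atTop 1] with n hn hn1
    refine lt_of_lt_of_le h4 ?_
    calc Real.exp (-(Real.log 2) + -ε) = (Real.exp (-((Real.log 2 + ε) * n))) ^ (1 / (n : ℝ)) := by
          rw [root _ n hn1]; congr 1; ring
      _ ≤ _ := Real.rpow_le_rpow (Real.exp_pos _).le hn (by positivity)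
  · intro a ha
    have h1 : Tendsto (fun ε : ℝ => Real.exp (-(Real.log 2) + ε)) (𝓝 0) (𝓝 (Real.exp (-(Real.log 2)))) := by
      simpa using hcont.tendsto 0
    have h3 : ∀ᶠ ε : ℝ in 𝓝[>] 0, Real.exp (-(Real.log 2) + ε) < a :=
      (h1.eventually (gt_mem_nhds ha)).filter_mono nhdsWithin_le_nhds
    obtain ⟨ε, h4, h5⟩ := (h3.and self_mem_nhdsWithin).exists
    filter_upwards [hup ε h5, eventually_ge_atTop 1] with n hn hn1
    refine lt_of_le_of_lt ?_ h4
    calc x n ^ (1 / (n : ℝ)) ≤ (Real.exp (-((Real.log 2 - ε) * n))) ^ (1 / (n : ℝ)) :=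
          Real.rpow_le_rpow (h0 n) hn (by positivity)
      _ = _ := by rw [root _ n hn1]; congr 1; ring

end Vale.Agent.P160.H462
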