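import Vale.Agent.P160.H462.Lower

/-! # P160 / H462: general diagonal: change of measure relative to the law of the diagonal, lower
bound -/

open Finset Filter Topology

namespace Vale.Agent.P160.H462

variable {n : ℕ}

/-- the part of `δ` on the diagonal -/
noncomputable def dg (δ : Sym2 (Fin n) → ℝ) (e : Sym2 (Fin n)) : ℝ := by
  classical exact if e.IsDiag then δ e else 0

/-- the part of `δ` off the diagonal -/
noncomputable def off (δ : Sym2 (Fin n) → ℝ) (e : Sym2 (Fin n)) : ℝ := by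
  classical exact if e.IsDiag then 0 else δ e

theorem dg_abs {δ : Sym2 (Fin n) → ℝ} (hδ : ∀ e, |δ e| ≤ 1) (e : Sym2 (Fin n)) : |dg δ e| ≤ 1 := by
  unfold dg; split_ifs
  · exact hδ e
  · simp

theorem off_abs {δ : Sym2 (Fin n) → ℝ} (hδ : ∀ e, |δ e| ≤ 1) (e : Sym2 (Fin n)) : |off δ e| ≤ 1 := by
  unfold off; split_ifs
  · simp
  · exact hδ e

theorem dg_off (δ : Sym2 (Fin n) → ℝ) (e : Sym2 (Fin n)) : dg δ e = 0 ∨ off δ e = 0 := by
  unfold dg off; split_ifs
  · exact Or.inr rfl
  · exact Or.inl rfl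

theorem dg_add_off (δ : Sym2 (Fin n) → ℝ) : (fun e => dg δ e + off δ e) = δ := by
  funext e
  unfold dg off; split_ifs <;> simp

/-- product of a base measure and a density on other coordinates -/
theorem wt_add (ρ η : Sym2 (Fin n) → ℝ) (h : ∀ e, ρ e = 0 ∨ η e = 0) (b : Bits n) :
    wt (fun e => ρ e + η e) b = dens η b * wt ρ b := by
  unfold wt dens
  rw [← prod_mul_distrib]
  refine prod_congr rfl fun e _ => ?_
  show (1 + (ρ e + η e) * sg (b e)) / 2 = (1 + η e * sg (b e)) * ((1 + ρ e * sg (b e)) / 2)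
  rcases h e with h1 | h1 <;> simp only [h1] <;> ring

theorem dens_moment_base {ρ η : Sym2 (Fin n) → ℝ} (hρ : ∀ e, |ρ e| ≤ 1) (hη : ∀ e, |η e| ≤ 1)
    (h : ∀ e, ρ e = 0 ∨ η e = 0) (m : ℕ) :
    ∑ b : Bits n, dens η b ^ m * wt ρ b ≤ Real.exp ((m : ℝ) ^ 2 * (∑ e, η e ^ 2) / 2) := by
  have h1 : ∀ b : Bits n, dens η b ^ m * wt ρ b =
      ∏ e, (fun e x => (1 + η e * sg x) ^ m * ((1 + ρ e * sg x) / 2)) e (b e) := by
    intro b
    unfold dens wt
    rw [← prod_pow, ← prod_mul_distrib]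
  rw [sum_congr rfl fun b _ => h1 b, sum_prod (fun e x => (1 + η e * sg x) ^ m * ((1 + ρ e * sg x) / 2))]
  have h2 : ((m : ℝ) ^ 2 * (∑ e, η e ^ 2) / 2) = ∑ e, ((m : ℝ) ^ 2 * η e ^ 2 / 2) := by
    rw [mul_sum, sum_div]
  rw [h2, Real.exp_sum]
  refine prod_le_prod (fun e _ => ?_) fun e _ => ?_
  · have h' := abs_le.1 (hη e)
    have h'' := abs_le.1 (hρ e)
    have h3 : 0 ≤ 1 + η e * sg false := by simp only [sg]; simp; linarith [h'.1]
    have h4 : 0 ≤ 1 + η e * sg true := by simp only [sg]; simp; linarith [h'.2]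
    have h5 : 0 ≤ 1 + ρ e * sg false := by simp only [sg]; simp; linarith [h''.1]
    have h6 : 0 ≤ 1 + ρ e * sg true := by simp only [sg]; simp; linarith [h''.2]
    positivity
  · rcases h e with h3 | h3
    · refine le_trans (le_of_eq ?_) (cosh_bound m (η e) (hη e) m rfl)
      simp only [sg, h3]
      simp
      ring
    · simp only [sg, h3]
      simp
      linarith

/-- **change of measure** relative to a base measure -/
theorem prob_le_base {ρ η : Sym2 (Fin n) → ℝ} (hρ : ∀ e, |ρ e| ≤ 1) (hη : ∀ e, |η e| ≤ 1)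
    (h : ∀ e, ρ e = 0 ∨ η e = 0) (E : Set (Bits n)) (t : ℝ) (ht : 0 < t) (r : ℕ) :
    prob (fun e => ρ e + η e) E ≤ t * prob ρ E +
      Real.exp (((r + 1 : ℕ) : ℝ) ^ 2 * (∑ e, η e ^ 2) / 2) / t ^ r := by
  classical
  rw [prob_eq, prob_eq]
  have hd : ∀ b : Bits n, 0 ≤ dens η b := by
    intro b
    refine prod_nonneg fun e _ => ?_
    have h := abs_le.1 (hη e)
    unfold sg
    split_ifs <;> linarith [h.1, h.2]
  have key : ∀ b : Bits n, wt (fun e => ρ e + η e) b ≤ t * wt ρ b + dens η b ^ (r + 1) * wt ρ b / t ^ r := by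
    intro b
    have hw := wt_nonneg hρ b
    have hd := hd b
    rw [wt_add ρ η h]
    by_cases hcase : dens η b ≤ t
    · have h1 := mul_le_mul_of_nonneg_right hcase hw
      have h2 : 0 ≤ dens η b ^ (r + 1) * wt ρ b / t ^ r := by positivity
      linarith
    · push Not at hcase
      have h1 : dens η b * t ^ r ≤ dens η b ^ (r + 1) := by
        rw [pow_succ, mul_comm]
        exact mul_le_mul_of_nonneg_right (pow_le_pow_left₀ ht.le hcase.le r) hd
      have h2 : dens η b ≤ dens η b ^ (r + 1) / t ^ r := by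
        rw [le_div_iff₀ (by positivity)]; exact h1
      have h3 := mul_le_mul_of_nonneg_right h2 hw
      have h4 : 0 ≤ t * wt ρ b := by positivity
      calc dens η b * wt ρ b ≤ dens η b ^ (r + 1) / t ^ r * wt ρ b := h3
        _ = dens η b ^ (r + 1) * wt ρ b / t ^ r := by ring
        _ ≤ _ := by linarith
  calc ∑ b ∈ univ.filter (· ∈ E), wt (fun e => ρ e + η e) b
      ≤ ∑ b ∈ univ.filter (· ∈ E), (t * wt ρ b + dens η b ^ (r + 1) * wt ρ b / t ^ r) :=
        sum_le_sum fun b _ => key b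
    _ = t * ∑ b ∈ univ.filter (· ∈ E), wt ρ b +
        (∑ b ∈ univ.filter (· ∈ E), dens η b ^ (r + 1) * wt ρ b) / t ^ r := by
        rw [sum_add_distrib, mul_sum, sum_div]
    _ ≤ _ := by
        refine add_le_add le_rfl (div_le_div_of_nonneg_right ?_ (by positivity))
        refine le_trans (sum_le_sum_of_subset_of_nonneg (filter_subset _ _) fun b _ _ => ?_)
          (dens_moment_base hρ hη h (r + 1))
        have hw := wt_nonneg hρ b
        have hd := hd b
        positivity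

theorem sum_off_sq [DecidablePred fun e : Sym2 (Fin n) => ¬ e.IsDiag] (δ : Sym2 (Fin n) → ℝ) :
    ∑ e, off δ e ^ 2 = ∑ e ∈ univ.filter (fun e : Sym2 (Fin n) => ¬ e.IsDiag), δ e ^ 2 := by
  classical
  rw [sum_filter]
  refine sum_congr rfl fun e _ => ?_
  unfold off
  by_cases h : e.IsDiag
  · simp [h]
  · simp [h]

/-! ## lower bound -/

/-- rows `i` and `j` are equal and the diagonal bit is `s` -/
def EqRowsS (i j : Fin n) (s : Bool) : Set (Bits n) := {b | b ∈ EqRows i j ∧ b s(i, i) = s}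

theorem prob_eqRowsS (i j : Fin n) (hij : i ≠ j) (s : Bool) :
    (1 / 2 : ℝ) ^ n / 2 ≤ prob (0 : Sym2 (Fin n) → ℝ) (EqRowsS i j s) := by
  classical
  have h1 := prob_eqRows i j hij
  have hsame : prob (0 : Sym2 (Fin n) → ℝ) (EqRowsS i j s) = prob 0 (EqRowsS i j !s) := by
    rw [prob_zero, prob_zero]
    congr 2
    refine card_bij (fun b _ => fun e => !(b e)) (fun b hb => ?_) (fun b _ b' _ h => ?_) fun b hb => ?_
    · have h2 := (mem_filter.1 hb).2
      refine mem_filter.2 ⟨mem_univ _, fun k => ?_, ?_⟩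
      · show (!(b s(i, k))) = !(b s(j, k))
        rw [h2.1 k]
      · show (!(b s(i, i))) = !s
        rw [h2.2]
    · funext e
      have := congrFun h e
      simpa using this
    · have h2 := (mem_filter.1 hb).2
      refine ⟨fun e => !(b e), mem_filter.2 ⟨mem_univ _, fun k => ?_, ?_⟩, ?_⟩
      · show (!(b s(i, k))) = !(b s(j, k))
        rw [h2.1 k]
      · show (!(b s(i, i))) = s
        rw [h2.2]; simp
      · funext e; simp
  have hcov : EqRows i j ⊆ EqRowsS i j s ∪ EqRowsS i j !s := by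
    intro b hb
    by_cases h : b s(i, i) = s
    · exact Or.inl ⟨hb, h⟩
    · exact Or.inr ⟨hb, by cases hs : s <;> cases hbi : b s(i, i) <;> simp_all⟩
  have h2 := (prob_zero_mono hcov).trans (prob_union_le (δ := 0) (fun e => by simp) _ _)
  rw [← hsame] at h2
  linarith

theorem exists_light3 (δ : Sym2 (Fin n) → ℝ) (h : 8 * ∑ e, off δ e ^ 2 < n - 2) :
    ∃ i j : Fin n, i ≠ j ∧ ∑ k, off δ s(i, k) ^ 2 ≤ 1 / 4 ∧ ∑ k, off δ s(j, k) ^ 2 ≤ 1 / 4 ∧
      0 ≤ δ s(i, i) * δ s(j, j) := by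
  classical
  set R : Fin n → ℝ := fun i => ∑ k, off δ s(i, k) ^ 2 with hR
  have hR0 : ∀ i, 0 ≤ R i := fun i => sum_nonneg fun k _ => sq_nonneg _
  have h2 := card_filter_add_card_filter_not (s := (univ : Finset (Fin n))) (fun i => R i ≤ 1 / 4)
  rw [card_univ, Fintype.card_fin] at h2
  have h4 : ((univ.filter fun i : Fin n => ¬ R i ≤ 1 / 4).card : ℝ) * (1 / 4) ≤ ∑ i, R i := by
    rw [← nsmul_eq_mul, ← sum_const]
    refine le_trans (sum_le_sum fun i hi => (not_le.1 (mem_filter.1 hi).2).le) ?_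
    exact sum_le_sum_of_subset_of_nonneg (filter_subset _ _) fun i _ _ => hR0 i
  have h6 : ∑ i, R i ≤ 2 * ∑ e, off δ e ^ 2 := sum_rows_le (fun e => off δ e ^ 2) fun e => sq_nonneg _
  have h7 : 2 < (univ.filter fun i : Fin n => R i ≤ 1 / 4).card := by
    have h8 : (n : ℝ) = (univ.filter fun i : Fin n => R i ≤ 1 / 4).card +
        (univ.filter fun i : Fin n => ¬ R i ≤ 1 / 4).card := by exact_mod_cast h2.symm
    have h9 : (2 : ℝ) < (univ.filter fun i : Fin n => R i ≤ 1 / 4).card := by linarith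
    exact_mod_cast h9
  obtain ⟨a, b, c, ha, hb, hc, hab, hac, hbc⟩ := Finset.two_lt_card_iff.1 h7
  have ha' := (mem_filter.1 ha).2
  have hb' := (mem_filter.1 hb).2
  have hc' := (mem_filter.1 hc).2
  by_cases h1 : 0 ≤ δ s(a, a) * δ s(b, b)
  · exact ⟨a, b, hab, ha', hb', h1⟩
  by_cases h3 : 0 ≤ δ s(a, a) * δ s(c, c)
  · exact ⟨a, c, hac, ha', hc', h3⟩
  refine ⟨b, c, hbc, hb', hc', ?_⟩
  push Not at h1 h3
  rcases lt_or_ge (δ s(a, a)) 0 with h5 | h5
  · have h8 : 0 < δ s(b, b) := by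
      by_contra hcon
      push Not at hcon
      nlinarith [mul_nonneg_of_nonpos_of_nonpos h5.le hcon]
    have h9 : 0 < δ s(c, c) := by
      by_contra hcon
      push Not at hcon
      nlinarith [mul_nonneg_of_nonpos_of_nonpos h5.le hcon]
    positivity
  · have h8 : δ s(b, b) < 0 := by
      by_contra hcon
      push Not at hcon
      nlinarith [mul_nonneg h5 hcon]
    have h9 : δ s(c, c) < 0 := by
      by_contra hcon
      push Not at hcon
      nlinarith [mul_nonneg h5 hcon]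
    exact (mul_pos_of_neg_of_neg h8 h9).le

/-- **lower bound** for a general diagonal -/
theorem lower_diag (M : ∀ n, Bits n → Matrix (Fin n) (Fin n) ℤ)
    (hM : ∀ n (i j : Fin n), i ≠ j → ∀ b ∈ EqRows i j, (M n b).det = 0)
    (δ : ∀ n, Sym2 (Fin n) → ℝ) (hδ : ∀ n e, |δ n e| ≤ 1)
    (hsum : Tendsto (fun n : ℕ => (∑ e, off (δ n) e ^ 2) / n) atTop (𝓝 0)) (ε : ℝ) (hε : 0 < ε) :
    ∀ᶠ n : ℕ in atTop, Real.exp (-((Real.log 2 + ε) * n)) ≤ prob (δ n) {b | (M n b).det = 0} := by
  classical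
  have hl := log2_pos
  obtain ⟨r, hr⟩ := exists_nat_ge (4 * Real.log 2 / ε)
  have hr' : 2 * Real.log 2 ≤ r * (ε / 2) := by
    rw [div_le_iff₀ hε] at hr
    linarith
  set K : ℝ := (2 * r + (r : ℝ) ^ 2 / 2) / 2 with hK
  filter_upwards [hsum.eventually (gt_mem_nhds (show (0 : ℝ) < 1 / 16 by norm_num)),
    tendsto_cast_atTop (Real.log 2) hl (K + 2 * Real.log 2),
    tendsto_cast_atTop (ε / 2) (by positivity) (2 * Real.log 2),
    eventually_ge_atTop 5] with n h1 h2 h3 hn4
  have hn : (5 : ℝ) ≤ n := by exact_mod_cast hn4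
  have hn0 : (0 : ℝ) < n := by linarith
  rw [div_lt_iff₀ hn0] at h1
  obtain ⟨i, j, hij, hi, hj, hprod⟩ := exists_light3 (δ n) (by linarith)
  -- the sign of the diagonal
  obtain ⟨s, hsi, hsj⟩ : ∃ s : Bool, 0 ≤ δ n s(i, i) * sg s ∧ 0 ≤ δ n s(j, j) * sg s := by
    by_cases h0 : 0 ≤ δ n s(i, i) ∧ 0 ≤ δ n s(j, j)
    · exact ⟨false, by simpa [sg] using h0.1, by simpa [sg] using h0.2⟩
    · refine ⟨true, ?_, ?_⟩
      · simp only [sg, if_true]
        by_contra hcon
        push Not at hcon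
        have h4 : 0 < δ n s(i, i) := by linarith
        exact h0 ⟨h4.le, by by_contra h5; push Not at h5; nlinarith⟩
      · simp only [sg, if_true]
        by_contra hcon
        push Not at hcon
        have h4 : 0 < δ n s(j, j) := by linarith
        exact h0 ⟨by by_contra h5; push Not at h5; nlinarith, h4.le⟩
  -- restrict the bias to the two rows
  set p : Sym2 (Fin n) → Prop := fun e => i ∈ e ∨ j ∈ e with hp
  set δ₁ : Sym2 (Fin n) → ℝ := fun e => if p e then δ n e else 0 with hδ₁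
  set δ₂ : Sym2 (Fin n) → ℝ := fun e => if p e then off (δ n) e else 0 with hδ₂
  have hsq : ∑ e, δ₂ e ^ 2 ≤ 1 / 2 := by
    have h5 : ∀ a : Fin n, ∑ e ∈ univ.filter (fun e : Sym2 (Fin n) => a ∈ e), off (δ n) e ^ 2 ≤
        ∑ k, off (δ n) s(a, k) ^ 2 := by
      intro a
      have h6 : (univ.filter (fun e : Sym2 (Fin n) => a ∈ e)) ⊆ univ.image fun k => s(a, k) := by
        intro e he
        obtain ⟨c, hc⟩ := (mem_filter.1 he).2
        exact mem_image.2 ⟨c, mem_univ _, hc.symm⟩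
      calc ∑ e ∈ univ.filter (fun e : Sym2 (Fin n) => a ∈ e), off (δ n) e ^ 2
          ≤ ∑ e ∈ univ.image fun k => s(a, k), off (δ n) e ^ 2 :=
            sum_le_sum_of_subset_of_nonneg h6 fun e _ _ => sq_nonneg _
        _ = ∑ k, off (δ n) s(a, k) ^ 2 := by
            rw [sum_image]
            intro x _ y _ hxy
            exact Sym2.congr_right.1 hxy
    have h7 : ∑ e, δ₂ e ^ 2 ≤ ∑ e ∈ univ.filter (fun e : Sym2 (Fin n) => i ∈ e), off (δ n) e ^ 2 +
        ∑ e ∈ univ.filter (fun e : Sym2 (Fin n) => j ∈ e), off (δ n) e ^ 2 := by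
      rw [sum_filter, sum_filter, ← sum_add_distrib]
      refine sum_le_sum fun e _ => ?_
      simp only [hδ₂, hp]
      have h8 := sq_nonneg (off (δ n) e)
      by_cases hi' : i ∈ e <;> by_cases hj' : j ∈ e <;> simp [hi', hj']; linarith
    linarith [h5 i, h5 j]
  have hhalf : ∀ e, |δ₂ e| ≤ 1 / 2 := by
    intro e
    have row : ∀ a : Fin n, ∑ k, off (δ n) s(a, k) ^ 2 ≤ 1 / 4 → a ∈ e → |off (δ n) e| ≤ 1 / 2 := by
      intro a ha hae
      obtain ⟨c, rfl⟩ := hae
      have h8 : off (δ n) s(a, c) ^ 2 ≤ ∑ k, off (δ n) s(a, k) ^ 2 :=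
        single_le_sum (f := fun k => off (δ n) s(a, k) ^ 2) (fun k _ => sq_nonneg _) (mem_univ c)
      refine abs_le_of_sq_le_sq' ?_ (by norm_num) |> fun h => abs_le.2 h
      linarith
    simp only [hδ₂]
    split_ifs with hpe
    · rcases hpe with h9 | h9
      · exact row i hi h9
      · exact row j hj h9
    · simp
  set F : Set (Bits n) := EqRowsS i j s with hF
  have hmar : prob (δ n) F = prob δ₁ F := by
    refine prob_marginal p _ _ (fun e he => by simp only [hδ₁]; rw [if_pos he]) _ fun b b' hb => ?_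
    have h10 : ∀ k, b s(i, k) = b' s(i, k) := fun k => hb _ (Or.inl (Sym2.mem_mk_left i k))
    have h11 : ∀ k, b s(j, k) = b' s(j, k) := fun k => hb _ (Or.inr (Sym2.mem_mk_left j k))
    constructor
    · rintro ⟨h, h'⟩
      exact ⟨fun k => by rw [← h10, ← h11]; exact h k, by rw [← h10]; exact h'⟩
    · rintro ⟨h, h'⟩
      exact ⟨fun k => by rw [h10, h11]; exact h k, by rw [h10]; exact h'⟩
  have hle : prob δ₂ F ≤ prob δ₁ F := by
    rw [prob_eq, prob_eq]
    refine sum_le_sum fun b hb => ?_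
    have hbF := (mem_filter.1 hb).2
    have hbi : b s(i, i) = s := hbF.2
    have hbj : b s(j, j) = s := by
      have h12 := hbF.1 i
      have h13 := hbF.1 j
      rw [← h13, Sym2.eq_swap, ← h12, hbi]
    unfold wt
    refine prod_le_prod (fun e _ => ?_) fun e _ => ?_
    · have h14 := abs_le.1 (hhalf e)
      unfold sg
      split_ifs <;> linarith [h14.1, h14.2]
    · by_cases hpe : p e
      · simp only [hδ₁, hδ₂, if_pos hpe]
        by_cases hd : e.IsDiag
        · have hoff : off (δ n) e = 0 := by unfold off; rw [if_pos hd]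
          rw [hoff]
          have h15 : 0 ≤ δ n e * sg (b e) := by
            induction e using Sym2.ind with
            | _ a c =>
              have hac : a = c := Sym2.mk_isDiag_iff.1 hd
              subst hac
              rcases hpe with h16 | h16
              · have h17 : i = a := by simpa using h16
                subst h17
                rw [hbi]; exact hsi
              · have h17 : j = a := by simpa using h16
                subst h17
                rw [hbj]; exact hsj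
          linarith
        · have hoff : off (δ n) e = δ n e := by unfold off; rw [if_neg hd]
          rw [hoff]
      · simp only [hδ₁, hδ₂, if_neg hpe]
        exact le_rfl
  have h12 := prob_zero_le_of_biased hhalf F (Real.exp (ε / 2 * n)) (Real.exp_pos _) r
  have h13 := prob_eqRowsS i j hij s
  have e0 : (1 / 2 : ℝ) ^ n / 4 = Real.exp (-(Real.log 2 * n) - 2 * Real.log 2) := by
    have e1 : Real.exp (2 * Real.log 2) = 4 := by
      rw [two_mul, Real.exp_add, Real.exp_log (by norm_num)]; norm_num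
    rw [Real.exp_sub, e1, Real.exp_neg, mul_comm (Real.log 2), Real.exp_nat_mul,
      Real.exp_log (by norm_num), one_div, inv_pow]
  have h14 : Real.exp ((2 * r + (r : ℝ) ^ 2 / 2) * ∑ e, δ₂ e ^ 2) / Real.exp (ε / 2 * n) ^ r ≤
      (1 / 2 : ℝ) ^ n / 4 := by
    rw [e0, ← Real.exp_nat_mul, ← Real.exp_sub]
    refine Real.exp_le_exp.2 ?_
    have h15 : (2 * r + (r : ℝ) ^ 2 / 2) * ∑ e, δ₂ e ^ 2 ≤ K := by
      have h20 := mul_le_mul_of_nonneg_left hsq (show (0 : ℝ) ≤ 2 * r + (r : ℝ) ^ 2 / 2 by positivity)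
      rw [hK]
      linarith
    have h16 := mul_le_mul_of_nonneg_right hr' hn0.le
    nlinarith
  have h15 : (1 / 2 : ℝ) ^ n / 4 ≤ Real.exp (ε / 2 * n) * prob δ₂ F := by
    have h16 : prob (0 : Sym2 (Fin n) → ℝ) F ≤ _ := h12
    have h17 : (1 / 2 : ℝ) ^ n / 2 ≤ prob (0 : Sym2 (Fin n) → ℝ) F := h13
    linarith
  have h16 : prob (δ n) F ≤ prob (δ n) {b | (M n b).det = 0} :=
    prob_mono (hδ n) fun b hb => hM n i j hij b hb.1
  refine le_trans ?_ h16
  rw [hmar]
  refine le_trans ?_ hle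
  rw [e0] at h15
  have h17 : Real.exp (-(ε / 2 * n)) * Real.exp (-(Real.log 2 * n) - 2 * Real.log 2) ≤ prob δ₂ F := by
    rw [Real.exp_neg, inv_mul_le_iff₀ (Real.exp_pos _)]
    exact h15
  refine le_trans ?_ h17
  rw [← Real.exp_add]
  refine Real.exp_le_exp.2 ?_
  nlinarith

end Vale.Agent.P160.H462
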