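import Mathlib

/-!
# A Chernoff bound for the number of minus signs of independent biased signs, at any value
-/

namespace Vale.Agent.P160.H462

open Finset

/-- the terms of the binomial expansion of `(w + (n - w)) ^ n` -/
theorem mode_up {n w j : ℕ} (hw : w ≤ n) (hj : j + 1 ≤ w) :
    n.choose j * w ^ j * (n - w) ^ (n - j) ≤
      n.choose (j + 1) * w ^ (j + 1) * (n - w) ^ (n - (j + 1)) := by
  have h1 : n.choose (j + 1) * (j + 1) = n.choose j * (n - j) := Nat.choose_succ_right_eq n j
  have h2 : n - j = (n - (j + 1)) + 1 := by omega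
  have h3 : (j + 1) * (n - w) ≤ (n - j) * w :=
    (Nat.mul_le_mul hj (by omega : n - w ≤ n - j)).trans (le_of_eq (Nat.mul_comm _ _))
  refine Nat.le_of_mul_le_mul_right (c := j + 1) ?_ (Nat.succ_pos j)
  calc n.choose j * w ^ j * (n - w) ^ (n - j) * (j + 1)
      = n.choose j * w ^ j * (n - w) ^ (n - (j + 1)) * ((j + 1) * (n - w)) := by
        rw [h2, pow_succ]
        have : n - (j + 1) + 1 - 1 = n - (j + 1) := by omega
        ring
    _ ≤ n.choose j * w ^ j * (n - w) ^ (n - (j + 1)) * ((n - j) * w) :=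
        Nat.mul_le_mul_left _ h3
    _ = (n.choose j * (n - j)) * w ^ (j + 1) * (n - w) ^ (n - (j + 1)) := by
        rw [pow_succ]; ring
    _ = n.choose (j + 1) * w ^ (j + 1) * (n - w) ^ (n - (j + 1)) * (j + 1) := by
        rw [← h1]; ring

theorem mode_down {n w j : ℕ} (hw : w ≤ j) (hj : j + 1 ≤ n) :
    n.choose (j + 1) * w ^ (j + 1) * (n - w) ^ (n - (j + 1)) ≤
      n.choose j * w ^ j * (n - w) ^ (n - j) := by
  have h1 : n.choose (j + 1) * (j + 1) = n.choose j * (n - j) := Nat.choose_succ_right_eq n j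
  have h2 : n - j = (n - (j + 1)) + 1 := by omega
  have h3 : (n - j) * w ≤ (j + 1) * (n - w) :=
    (Nat.mul_le_mul (by omega : n - j ≤ n - w) (by omega : w ≤ j + 1)).trans
      (le_of_eq (Nat.mul_comm _ _))
  refine Nat.le_of_mul_le_mul_right (c := j + 1) ?_ (Nat.succ_pos j)
  calc n.choose (j + 1) * w ^ (j + 1) * (n - w) ^ (n - (j + 1)) * (j + 1)
      = (n.choose (j + 1) * (j + 1)) * w ^ (j + 1) * (n - w) ^ (n - (j + 1)) := by ring
    _ = n.choose j * w ^ j * (n - w) ^ (n - (j + 1)) * ((n - j) * w) := by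
        rw [h1, pow_succ]; ring
    _ ≤ n.choose j * w ^ j * (n - w) ^ (n - (j + 1)) * ((j + 1) * (n - w)) :=
        Nat.mul_le_mul_left _ h3
    _ = n.choose j * w ^ j * (n - w) ^ (n - j) * (j + 1) := by
        rw [h2, pow_succ]; ring

theorem mode {n w : ℕ} (hw : w ≤ n) {j : ℕ} (hj : j ≤ n) :
    n.choose j * w ^ j * (n - w) ^ (n - j) ≤ n.choose w * w ^ w * (n - w) ^ (n - w) := by
  rcases le_total j w with h | h
  · induction h using Nat.decreasingInduction with
    | self => exact le_rfl
    | of_succ k hk ih => exact (mode_up hw hk).trans (ih (by omega))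
  · induction j, h using Nat.le_induction with
    | base => exact le_rfl
    | succ k hk ih => exact (mode_down hk hj).trans (ih (by omega))

theorem pow_self_le (n w : ℕ) (hw : w ≤ n) :
    n ^ n ≤ (n + 1) * (n.choose w * w ^ w * (n - w) ^ (n - w)) := by
  have h1 : n ^ n = ∑ m ∈ range (n + 1), w ^ m * (n - w) ^ (n - m) * n.choose m := by
    have h := add_pow w (n - w) n
    rw [Nat.add_sub_cancel' hw] at h
    simpa using h
  rw [h1]
  calc ∑ m ∈ range (n + 1), w ^ m * (n - w) ^ (n - m) * n.choose m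
      ≤ ∑ _m ∈ range (n + 1), n.choose w * w ^ w * (n - w) ^ (n - w) := by
        refine Finset.sum_le_sum fun m hm => ?_
        refine le_trans (le_of_eq ?_) (mode hw (Nat.lt_succ_iff.1 (Finset.mem_range.1 hm)))
        ring
    _ = (n + 1) * (n.choose w * w ^ w * (n - w) ^ (n - w)) := by
        rw [Finset.sum_const, Finset.card_range, smul_eq_mul]

theorem chernoff (n : ℕ) (d : Fin n → ℝ) (hd : ∀ i, |d i| ≤ 1) (w : ℕ) (hw : w ≤ n) :
    ∑ x ∈ (univ : Finset (Fin n → Bool)).filter
        (fun x => (univ.filter fun i => x i = true).card = w),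
      ∏ i, (1 + d i * (if x i then -1 else 1)) / 2 ≤
      (n + 1) * Real.exp |∑ i, d i| * (n.choose w) / 2 ^ n := by
  rcases Nat.eq_zero_or_pos n with hn | hn
  · subst hn
    have hw0 : w = 0 := by omega
    subst hw0
    simp
  have hnR : (0 : ℝ) < n := by exact_mod_cast hn
  set p : ℝ := (w : ℝ) with hp
  set q : ℝ := ((n - w : ℕ) : ℝ) with hq
  have hpq : p + q = n := by
    rw [hp, hq, Nat.cast_sub hw]; ring
  have hp0 : 0 ≤ p := Nat.cast_nonneg _
  have hq0 : 0 ≤ q := Nat.cast_nonneg _
  -- nonnegative weights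
  have hpos : ∀ (x : Fin n → Bool) (i : Fin n), 0 ≤ (1 + d i * (if x i then -1 else 1)) / 2 := by
    intro x i
    have h := abs_le.1 (hd i)
    cases x i <;> simp <;> linarith [h.1, h.2]
  -- the total sum
  have htot : ∑ x : Fin n → Bool, (∏ i, (1 + d i * (if x i then -1 else 1)) / 2) *
      ∏ i, (if x i then p else q) = ∏ i, ((n : ℝ) / 2 * (1 + d i * ((q - p) / n))) := by
    have h1 : ∀ i, (n : ℝ) / 2 * (1 + d i * ((q - p) / n)) =
        ∑ b : Bool, (1 + d i * (if b then -1 else 1)) / 2 * (if b then p else q) := by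
      intro i
      rw [Fintype.sum_bool]
      simp only [if_true, Bool.false_eq_true, if_false]
      rw [← hpq]
      have : p + q ≠ 0 := by rw [hpq]; exact hnR.ne'
      field_simp
      ring
    rw [Finset.prod_congr rfl fun i _ => h1 i, Finset.prod_univ_sum, Fintype.piFinset_univ]
    refine Finset.sum_congr rfl fun x _ => ?_
    rw [← Finset.prod_mul_distrib]
  -- the weight of `x`
  have hwt : ∀ x : Fin n → Bool, (univ.filter fun i => x i = true).card = w →
      ∏ i, (if x i then p else q) = p ^ w * q ^ (n - w) := by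
    intro x hx
    rw [Finset.prod_ite, Finset.prod_const, Finset.prod_const, hx]
    congr 2
    have h2 := Finset.card_filter_add_card_filter_not (s := (univ : Finset (Fin n)))
      (fun i => x i = true)
    rw [hx, Finset.card_univ, Fintype.card_fin] at h2
    omega
  set A : ℝ := ∑ x ∈ (univ : Finset (Fin n → Bool)).filter
        (fun x => (univ.filter fun i => x i = true).card = w),
      ∏ i, (1 + d i * (if x i then -1 else 1)) / 2 with hA
  have hA1 : A * (p ^ w * q ^ (n - w)) ≤ ∏ i, ((n : ℝ) / 2 * (1 + d i * ((q - p) / n))) := by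
    rw [← htot, hA, Finset.sum_mul]
    refine le_trans (le_of_eq (Finset.sum_congr rfl fun x hx => ?_))
      (Finset.sum_le_sum_of_subset_of_nonneg (Finset.filter_subset
        (fun x : Fin n → Bool => (univ.filter fun i => x i = true).card = w) univ)
        fun x _ _ => ?_)
    · rw [hwt x (Finset.mem_filter.1 hx).2]
    · refine mul_nonneg (Finset.prod_nonneg fun i _ => hpos x i)
        (Finset.prod_nonneg fun i _ => ?_)
      split_ifs
      · exact hp0
      · exact hq0
  -- the exponential bound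
  have hr : |(q - p) / n| ≤ 1 := by
    rw [abs_div, abs_of_pos hnR, div_le_one hnR, abs_le]
    constructor <;> linarith
  have hA2 : ∏ i, ((n : ℝ) / 2 * (1 + d i * ((q - p) / n))) ≤
      ((n : ℝ) / 2) ^ n * Real.exp |∑ i, d i| := by
    have h1 : ∏ i, ((n : ℝ) / 2 * (1 + d i * ((q - p) / n))) ≤
        ∏ i, ((n : ℝ) / 2 * Real.exp (d i * ((q - p) / n))) := by
      refine Finset.prod_le_prod (fun i _ => ?_) fun i _ => ?_
      · refine mul_nonneg (by positivity) ?_
        have h2 : |d i * ((q - p) / n)| ≤ 1 := by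
          rw [abs_mul]
          exact mul_le_one₀ (hd i) (abs_nonneg _) hr
        linarith [(abs_le.1 h2).1]
      · refine mul_le_mul_of_nonneg_left ?_ (by positivity)
        linarith [Real.add_one_le_exp (d i * ((q - p) / n))]
    refine h1.trans ?_
    rw [Finset.prod_mul_distrib, Finset.prod_const, Finset.card_univ, Fintype.card_fin,
      ← Real.exp_sum, ← Finset.sum_mul]
    refine mul_le_mul_of_nonneg_left (Real.exp_le_exp.2 ?_) (by positivity)
    calc (∑ i, d i) * ((q - p) / n) ≤ |(∑ i, d i) * ((q - p) / n)| := le_abs_self _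
      _ = |∑ i, d i| * |(q - p) / n| := abs_mul _ _
      _ ≤ |∑ i, d i| * 1 := mul_le_mul_of_nonneg_left hr (abs_nonneg _)
      _ = |∑ i, d i| := mul_one _
  -- the mode
  have hB0 : 0 < p ^ w * q ^ (n - w) := by
    refine mul_pos ?_ ?_
    · rcases Nat.eq_zero_or_pos w with h | h
      · rw [h]; simp
      · exact pow_pos (by rw [hp]; exact_mod_cast h) _
    · rcases Nat.eq_zero_or_pos (n - w) with h | h
      · rw [h]; simp
      · exact pow_pos (by rw [hq]; exact_mod_cast h) _
  have hm : (n : ℝ) ^ n ≤ (n + 1) * (n.choose w * p ^ w * q ^ (n - w)) := by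
    have := pow_self_le n w hw
    rw [hp, hq]
    exact_mod_cast this
  have hfin : A * (p ^ w * q ^ (n - w)) ≤
      ((n + 1) * Real.exp |∑ i, d i| * (n.choose w) / 2 ^ n) * (p ^ w * q ^ (n - w)) := by
    refine (hA1.trans hA2).trans ?_
    rw [div_pow]
    have h3 : (n : ℝ) ^ n / 2 ^ n * Real.exp |∑ i, d i| ≤
        ((n + 1) * (n.choose w * p ^ w * q ^ (n - w))) / 2 ^ n * Real.exp |∑ i, d i| := by
      gcongr
    refine h3.trans (le_of_eq ?_)
    ring
  exact le_of_mul_le_mul_right hfin hB0

end Vale.Agent.P160.H462
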