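import Vale.Agent.P160.H462.Prob
import Vale.Agent.P160.H462.Cher285

/-! # P160 / H462: deterministic or biased diagonals cost only `(n + 1) exp |∑ δ_ii|` (helper293) -/

open Finset

namespace Vale.Agent.P160.H462

variable {n : ℕ}

/-- the diagonal of a bit vector -/
def diagV (b : Bits n) : Fin n → Bool := fun i => b s(i, i)

/-- weight of the diagonal -/
noncomputable def dwt (δ : Sym2 (Fin n) → ℝ) (x : Fin n → Bool) : ℝ :=
  ∏ i, (1 + δ s(i, i) * (if x i then -1 else 1)) / 2

theorem wt_diag {δ : Sym2 (Fin n) → ℝ} (hoff : ∀ e, ¬ e.IsDiag → δ e = 0) (b : Bits n) :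
    wt δ b = dwt δ (diagV b) *
      (1 / 2 : ℝ) ^ ((univ : Finset (Sym2 (Fin n))).filter fun e => ¬ e.IsDiag).card := by
  classical
  unfold wt
  rw [← prod_filter_mul_prod_filter_not univ (fun e : Sym2 (Fin n) => e.IsDiag)]
  congr 1
  · unfold dwt diagV
    symm
    refine prod_nbij (fun i => s(i, i)) ?_ ?_ ?_ ?_
    · intro i _
      simp
    · intro i _ j _ h
      have : (i = j ∧ i = j) ∨ (i = j ∧ i = j) := by simpa using h
      rcases this with h | h <;> exact h.1
    · intro e he
      have he' : e.IsDiag := (mem_filter.1 he).2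
      induction e with
      | h x y =>
        have : x = y := by simpa using he'
        subst this
        exact ⟨x, by simp, rfl⟩
    · intro i _
      rfl
  · rw [prod_congr rfl (g := fun _ => (1 / 2 : ℝ)), prod_const]
    intro e he
    rw [hoff e (mem_filter.1 he).2]
    ring

open Classical in
/-- number of elements of `E` with the given diagonal -/
noncomputable def gcnt (E : Set (Bits n)) (x : Fin n → Bool) : ℝ :=
  ((univ.filter fun b : Bits n => b ∈ E ∧ diagV b = x).card : ℝ)

theorem prob_diag_eq {δ : Sym2 (Fin n) → ℝ} (hoff : ∀ e, ¬ e.IsDiag → δ e = 0)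
    (E : Set (Bits n)) :
    prob δ E = (1 / 2 : ℝ) ^ ((univ : Finset (Sym2 (Fin n))).filter fun e => ¬ e.IsDiag).card *
      ∑ x : Fin n → Bool, dwt δ x * gcnt E x := by
  classical
  rw [prob_eq, ← sum_fiberwise (univ.filter (· ∈ E)) (fun b : Bits n => diagV b) (wt δ), mul_sum]
  refine sum_congr rfl fun x _ => ?_
  rw [sum_congr rfl (g := fun _ => dwt δ x * (1 / 2 : ℝ) ^
    ((univ : Finset (Sym2 (Fin n))).filter fun e => ¬ e.IsDiag).card)]
  · rw [sum_const, nsmul_eq_mul, filter_filter]
    have h : ∀ (inst : DecidablePred fun b : Bits n => b ∈ E ∧ diagV b = x),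
        ((@filter (Bits n) (fun b => b ∈ E ∧ diagV b = x) inst univ).card : ℝ) = gcnt E x := by
      intro inst
      unfold gcnt
      congr
    rw [h]
    ring
  · intro b hb
    rw [wt_diag hoff, (mem_filter.1 hb).2]

/-- symmetry of the counts -/
theorem gcnt_perm {E : Set (Bits n)}
    (hE : ∀ (σ : Equiv.Perm (Fin n)) (b : Bits n), b ∈ E → (fun e => b (e.map σ)) ∈ E)
    (σ : Equiv.Perm (Fin n)) (x : Fin n → Bool) : gcnt E x ≤ gcnt E (x ∘ σ) := by
  classical
  unfold gcnt
  norm_cast
  refine card_le_card_of_injOn (fun b : Bits n => (fun e => b (e.map σ) : Bits n)) ?_ ?_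
  · intro b hb
    have hb' := mem_filter.1 (mem_coe.1 hb)
    refine mem_coe.2 (mem_filter.2 ⟨mem_univ _, hE σ b hb'.2.1, ?_⟩)
    funext i
    show b (Sym2.map σ s(i, i)) = x (σ i)
    rw [Sym2.map_mk, ← hb'.2.2]
    rfl
  · intro b _ b' _ h
    funext e
    have h1 := congrFun h (e.map σ.symm)
    simp only [Sym2.map_map] at h1
    have h2 : (σ : Fin n → Fin n) ∘ (σ.symm : Fin n → Fin n) = id := by
      funext i; simp
    rw [h2, Sym2.map_id] at h1
    exact h1

theorem gcnt_eq {E : Set (Bits n)}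
    (hE : ∀ (σ : Equiv.Perm (Fin n)) (b : Bits n), b ∈ E → (fun e => b (e.map σ)) ∈ E)
    {x y : Fin n → Bool}
    (h : (univ.filter fun i => x i = true).card = (univ.filter fun i => y i = true).card) :
    gcnt E x = gcnt E y := by
  classical
  -- a permutation taking one support to the other
  have key : ∀ x y : Fin n → Bool,
      (univ.filter fun i => x i = true).card = (univ.filter fun i => y i = true).card →
      ∃ σ : Equiv.Perm (Fin n), y = x ∘ σ := by
    intro x y h
    have h1 : Fintype.card {i // y i = true} = Fintype.card {i // x i = true} := by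
      rw [Fintype.card_subtype, Fintype.card_subtype]
      exact h.symm
    have h2 : Fintype.card {i // ¬ y i = true} = Fintype.card {i // ¬ x i = true} := by
      rw [Fintype.card_subtype_compl, Fintype.card_subtype_compl, h1]
    let e1 := Fintype.equivOfCardEq h1
    let e2 := Fintype.equivOfCardEq h2
    refine ⟨Equiv.subtypeCongr e1 e2, ?_⟩
    funext i
    by_cases hi : y i = true
    · have h3 : (Equiv.subtypeCongr e1 e2) i = (e1 ⟨i, hi⟩ : Fin n) := by
        simp [Equiv.subtypeCongr, Equiv.sumCompl, hi]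
      show y i = x (Equiv.subtypeCongr e1 e2 i)
      rw [h3, hi, (e1 ⟨i, hi⟩).2]
    · have h3 : (Equiv.subtypeCongr e1 e2) i = (e2 ⟨i, hi⟩ : Fin n) := by
        simp [Equiv.subtypeCongr, Equiv.sumCompl, hi]
      show y i = x (Equiv.subtypeCongr e1 e2 i)
      have h4 := (e2 ⟨i, hi⟩).2
      rw [h3]
      rw [Bool.not_eq_true] at hi h4
      rw [hi, h4]
  apply le_antisymm
  · obtain ⟨σ, hσ⟩ := key x y h
    rw [hσ]
    exact gcnt_perm hE σ x
  · obtain ⟨σ, hσ⟩ := key y x h.symm
    rw [hσ]
    exact gcnt_perm hE σ y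

theorem card_weight (w : ℕ) : ((univ : Finset (Fin n → Bool)).filter
    (fun x => (univ.filter fun i => x i = true).card = w)).card = n.choose w := by
  classical
  have h := card_powersetCard w (univ : Finset (Fin n))
  rw [card_univ, Fintype.card_fin] at h
  rw [← h]
  refine card_nbij' (fun x => univ.filter fun i => x i = true) (fun s i => decide (i ∈ s)) ?_ ?_ ?_ ?_
  · intro x hx
    have := (mem_filter.1 hx).2
    exact mem_powersetCard.2 ⟨subset_univ _, this⟩
  · intro s hs
    have := (mem_powersetCard.1 hs).2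
    refine mem_filter.2 ⟨mem_univ _, ?_⟩
    simpa using this
  · intro x _
    funext i
    simp
  · intro s _
    ext i
    simp

/-- **diagonals**: an arbitrary independent diagonal costs a factor `(n + 1) exp |∑ δ_ii|` for
events invariant under simultaneous permutations of rows and columns -/
theorem prob_diag_le (n : ℕ) (δ : Sym2 (Fin n) → ℝ) (hδ : ∀ e, |δ e| ≤ 1)
    (hoff : ∀ e, ¬ e.IsDiag → δ e = 0) (E : Set (Bits n))
    (hE : ∀ (σ : Equiv.Perm (Fin n)) (b : Bits n), b ∈ E → (fun e => b (e.map σ)) ∈ E) :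
    prob δ E ≤ (n + 1) * Real.exp |∑ i : Fin n, δ s(i, i)| * prob (0 : Sym2 (Fin n) → ℝ) E := by
  classical
  rw [prob_diag_eq hoff, prob_diag_eq (δ := (0 : Sym2 (Fin n) → ℝ)) (fun e _ => rfl)]
  set K := ((univ : Finset (Sym2 (Fin n))).filter fun e => ¬ e.IsDiag).card
  set c : ℝ := (n + 1) * Real.exp |∑ i : Fin n, δ s(i, i)| with hc
  have hK : (0 : ℝ) ≤ (1 / 2 : ℝ) ^ K := by positivity
  have h0 : ∀ x : Fin n → Bool, dwt (0 : Sym2 (Fin n) → ℝ) x = 1 / 2 ^ n := by
    intro x
    unfold dwt
    simp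
  have hmain : ∑ x : Fin n → Bool, dwt δ x * gcnt E x ≤
      c * ∑ x : Fin n → Bool, dwt (0 : Sym2 (Fin n) → ℝ) x * gcnt E x := by
    rw [← sum_fiberwise_of_maps_to (s := (univ : Finset (Fin n → Bool))) (t := range (n + 1))
      (g := fun x => (univ.filter fun i => x i = true).card)
      (fun x _ => mem_range.2 (Nat.lt_succ_of_le ((card_le_univ _).trans
        (le_of_eq (Fintype.card_fin n))))) (fun x => dwt δ x * gcnt E x),
      ← sum_fiberwise_of_maps_to (s := (univ : Finset (Fin n → Bool))) (t := range (n + 1))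
      (g := fun x => (univ.filter fun i => x i = true).card)
      (fun x _ => mem_range.2 (Nat.lt_succ_of_le ((card_le_univ _).trans
        (le_of_eq (Fintype.card_fin n)))))
      (fun x => dwt (0 : Sym2 (Fin n) → ℝ) x * gcnt E x), mul_sum]
    refine sum_le_sum fun w hw => ?_
    have hw' : w ≤ n := Nat.lt_succ_iff.1 (mem_range.1 hw)
    set S := (univ : Finset (Fin n → Bool)).filter
        (fun x => (univ.filter fun i => x i = true).card = w) with hS
    obtain ⟨x0, hx0⟩ : S.Nonempty := by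
      rw [← card_pos, hS, card_weight]
      exact Nat.choose_pos hw'
    have hG : ∀ x ∈ S, gcnt E x = gcnt E x0 := by
      intro x hx
      exact gcnt_eq hE ((mem_filter.1 hx).2.trans (mem_filter.1 hx0).2.symm)
    have hG0 : 0 ≤ gcnt E x0 := Nat.cast_nonneg _
    have h1 : ∑ x ∈ S, dwt δ x * gcnt E x = (∑ x ∈ S, dwt δ x) * gcnt E x0 := by
      rw [sum_mul]
      exact sum_congr rfl fun x hx => by rw [hG x hx]
    have h2 : ∑ x ∈ S, dwt (0 : Sym2 (Fin n) → ℝ) x * gcnt E x =
        (n.choose w : ℝ) / 2 ^ n * gcnt E x0 := by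
      rw [sum_congr rfl (g := fun _ => 1 / 2 ^ n * gcnt E x0) (fun x hx => by rw [hG x hx, h0]),
        sum_const, nsmul_eq_mul, hS, card_weight]
      ring
    rw [h1, h2]
    have h3 := chernoff n (fun i => δ s(i, i)) (fun i => hδ _) w hw'
    have h4 : (∑ x ∈ S, dwt δ x) ≤ c * ((n.choose w : ℝ) / 2 ^ n) := by
      refine h3.trans (le_of_eq ?_)
      rw [hc]
      ring
    calc (∑ x ∈ S, dwt δ x) * gcnt E x0 ≤ (c * ((n.choose w : ℝ) / 2 ^ n)) * gcnt E x0 :=
          mul_le_mul_of_nonneg_right h4 hG0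
      _ = c * ((n.choose w : ℝ) / 2 ^ n * gcnt E x0) := by ring
  calc (1 / 2 : ℝ) ^ K * ∑ x : Fin n → Bool, dwt δ x * gcnt E x
      ≤ (1 / 2 : ℝ) ^ K * (c * ∑ x : Fin n → Bool, dwt (0 : Sym2 (Fin n) → ℝ) x * gcnt E x) :=
        mul_le_mul_of_nonneg_left hmain hK
    _ = c * ((1 / 2 : ℝ) ^ K * ∑ x : Fin n → Bool, dwt (0 : Sym2 (Fin n) → ℝ) x * gcnt E x) := by
        ring

end Vale.Agent.P160.H462
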