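import Vale.Agent.P160.H462.Base
import Vale.Agent.P160.H462.Sym293

/-! # P160 / H462: biased entries with a general diagonal, upper bound -/

open Finset Filter Topology

namespace Vale.Agent.P160.H462

theorem log_succ_div : Tendsto (fun n : ℕ => Real.log ((n : ℝ) + 1) / n) atTop (𝓝 0) := by
  have h1 : Tendsto (fun x : ℝ => Real.log x / x) atTop (𝓝 0) := by
    simpa using Real.isLittleO_log_id_atTop.tendsto_div_nhds_zero
  have h2 : Tendsto (fun n : ℕ => (n : ℝ) + 1) atTop atTop :=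
    tendsto_atTop_add_const_right _ _ tendsto_natCast_atTop_atTop
  have h3 := h1.comp h2
  have h4 : Tendsto (fun n : ℕ => ((n : ℝ) + 1) / n) atTop (𝓝 1) := by
    have h5 : Tendsto (fun n : ℕ => (1 : ℝ) + 1 / n) atTop (𝓝 (1 + 0)) :=
      tendsto_const_nhds.add tendsto_one_div_atTop_nhds_zero_nat
    rw [add_zero] at h5
    refine h5.congr' ?_
    filter_upwards [eventually_ge_atTop 1] with n hn
    have : (n : ℝ) ≠ 0 := by positivity
    field_simp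
  have h6 := h3.mul h4
  rw [zero_mul] at h6
  refine h6.congr' ?_
  filter_upwards [eventually_ge_atTop 1] with n hn
  have h7 : (n : ℝ) ≠ 0 := by positivity
  have h8 : (n : ℝ) + 1 ≠ 0 := by positivity
  simp only [Function.comp]
  field_simp

/-- only the diagonal is biased, with trace `o(n)` -/
theorem prob_dg_le (δ : ∀ n, Sym2 (Fin n) → ℝ) (hδ : ∀ n e, |δ n e| ≤ 1)
    (htr : Tendsto (fun n : ℕ => (∑ i : Fin n, δ n s(i, i)) / n) atTop (𝓝 0)) (η : ℝ) (hη : 0 < η) :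
    ∀ᶠ n : ℕ in atTop, ∀ E : Set (Bits n),
      (∀ (σ : Equiv.Perm (Fin n)) b, b ∈ E → (fun e => b (e.map σ)) ∈ E) →
      prob (dg (δ n)) E ≤ Real.exp (η * n) * prob (0 : Sym2 (Fin n) → ℝ) E := by
  filter_upwards [eventually_ge_atTop 1,
    log_succ_div.eventually (gt_mem_nhds (show (0 : ℝ) < η / 2 by positivity)),
    htr.eventually (gt_mem_nhds (show (0 : ℝ) < η / 2 by positivity)),
    htr.eventually (lt_mem_nhds (show -(η / 2) < (0 : ℝ) by linarith))] with n hn1 hlg ht1 ht2 E hperm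
  have hn0 : (0 : ℝ) < n := by
    have : 0 < n := hn1
    exact_mod_cast this
  rw [div_lt_iff₀ hn0] at hlg ht1
  rw [lt_div_iff₀ hn0] at ht2
  have h4 := prob_diag_le n (dg (δ n)) (dg_abs (hδ n)) (fun e he => by unfold dg; rw [if_neg he]) E hperm
  have h5 : ∑ i : Fin n, dg (δ n) s(i, i) = ∑ i : Fin n, δ n s(i, i) := by
    refine sum_congr rfl fun i _ => ?_
    unfold dg
    rw [if_pos (Sym2.mk_isDiag_iff.2 rfl)]
  rw [h5] at h4
  refine h4.trans (mul_le_mul_of_nonneg_right ?_ (prob_zero_nonneg E))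
  have h6 : |∑ i : Fin n, δ n s(i, i)| ≤ η / 2 * n := abs_le.2 ⟨by linarith, by linarith⟩
  have h7 : ((n : ℝ) + 1) = Real.exp (Real.log ((n : ℝ) + 1)) := (Real.exp_log (by positivity)).symm
  calc ((n : ℝ) + 1) * Real.exp |∑ i : Fin n, δ n s(i, i)|
      = Real.exp (Real.log ((n : ℝ) + 1) + |∑ i : Fin n, δ n s(i, i)|) := by
        rw [Real.exp_add, ← h7]
    _ ≤ _ := by
        refine Real.exp_le_exp.2 ?_
        linarith

theorem Small.biased2 {E : ∀ n, Set (Bits n)} (hE : Small E)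
    (hperm : ∀ n (σ : Equiv.Perm (Fin n)) b, b ∈ E n → (fun e => b (e.map σ)) ∈ E n)
    (δ : ∀ n, Sym2 (Fin n) → ℝ) (hδ : ∀ n e, |δ n e| ≤ 1)
    (hsum : Tendsto (fun n : ℕ => (∑ e, off (δ n) e ^ 2) / n) atTop (𝓝 0))
    (htr : Tendsto (fun n : ℕ => (∑ i : Fin n, δ n s(i, i)) / n) atTop (𝓝 0))
    (ε : ℝ) (hε : 0 < ε) :
    ∀ᶠ n : ℕ in atTop, prob (δ n) (E n) ≤ Real.exp (-((Real.log 2 - ε) * n)) := by
  have hl := log2_pos
  obtain ⟨r, hr⟩ := exists_nat_ge (6 * Real.log 2 / ε)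
  have hr' : 2 * Real.log 2 ≤ r * (ε / 3) := by
    rw [div_le_iff₀ hε] at hr
    linarith
  have hc : (0 : ℝ) < 2 * Real.log 2 / ((r : ℝ) + 1) ^ 2 := by positivity
  filter_upwards [hE (ε / 9) (by positivity), hsum.eventually (gt_mem_nhds hc),
    tendsto_cast_atTop (ε / 3) (by positivity) (Real.log 2), eventually_ge_atTop 1,
    prob_dg_le δ hδ htr (2 * ε / 9) (by positivity)] with n h1 h2 h3 hn1 hdg'
  have hn0 : (0 : ℝ) < n := by
    have : 0 < n := hn1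
    exact_mod_cast this
  -- the law of the diagonal
  have hdg : prob (dg (δ n)) (E n) ≤ Real.exp (-((Real.log 2 - ε / 3) * n)) := by
    refine (hdg' (E n) (hperm n)).trans ((mul_le_mul_of_nonneg_left h1 (Real.exp_pos _).le).trans ?_)
    rw [← Real.exp_add]
    refine Real.exp_le_exp.2 (le_of_eq ?_)
    ring
  have h4 := prob_le_base (dg_abs (hδ n)) (off_abs (hδ n)) (dg_off (δ n)) (E n) (Real.exp (ε / 3 * n))
    (Real.exp_pos _) r
  rw [dg_add_off] at h4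
  refine h4.trans ?_
  have h5 : ((r + 1 : ℕ) : ℝ) ^ 2 * (∑ e, off (δ n) e ^ 2) / 2 ≤ Real.log 2 * n := by
    rw [div_lt_div_iff₀ hn0 (by positivity)] at h2
    push_cast
    nlinarith
  have h6 : Real.exp (((r + 1 : ℕ) : ℝ) ^ 2 * (∑ e, off (δ n) e ^ 2) / 2) / Real.exp (ε / 3 * n) ^ r ≤
      Real.exp (-((Real.log 2 - 2 * ε / 3) * n)) := by
    rw [← Real.exp_nat_mul, ← Real.exp_sub]
    refine Real.exp_le_exp.2 ?_
    have h7 := mul_le_mul_of_nonneg_right hr' hn0.le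
    have h8 : 0 ≤ 2 * ε / 3 * n := by positivity
    nlinarith
  have h9 : Real.exp (ε / 3 * n) * prob (dg (δ n)) (E n) ≤ Real.exp (-((Real.log 2 - 2 * ε / 3) * n)) := by
    calc _ ≤ Real.exp (ε / 3 * n) * Real.exp (-((Real.log 2 - ε / 3) * n)) :=
          mul_le_mul_of_nonneg_left hdg (Real.exp_pos _).le
      _ = Real.exp (ε / 3 * n + -((Real.log 2 - ε / 3) * n)) := (Real.exp_add _ _).symm
      _ ≤ _ := by
          refine Real.exp_le_exp.2 (le_of_eq ?_)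
          ring
  calc _ ≤ 2 * Real.exp (-((Real.log 2 - 2 * ε / 3) * n)) := by linarith
    _ = Real.exp (Real.log 2) * Real.exp (-((Real.log 2 - 2 * ε / 3) * n)) := by rw [Real.exp_log (by norm_num)]
    _ = Real.exp (Real.log 2 + -((Real.log 2 - 2 * ε / 3) * n)) := (Real.exp_add _ _).symm
    _ ≤ _ := by
        refine Real.exp_le_exp.2 ?_
        nlinarith

/-- the same uniformly in a parameter `k`, with the factor `2 ^ (-k² / 2)` -/
theorem biased_uniform (E : ∀ n, ℕ → Set (Bits n)) (c : ℝ) (hc1 : c ≤ 1)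
    (hE : ∀ ε : ℝ, 0 < ε → ∀ᶠ n : ℕ in atTop, ∀ k : ℕ, 1 ≤ k → prob (0 : Sym2 (Fin n) → ℝ) (E n k) ≤
      (2 : ℝ) ^ (-((c - ε) * n + (1 / 2 - ε) * (k : ℝ) ^ 2)))
    (hperm : ∀ n k (σ : Equiv.Perm (Fin n)) b, b ∈ E n k → (fun e => b (e.map σ)) ∈ E n k)
    (δ : ∀ n, Sym2 (Fin n) → ℝ) (hδ : ∀ n e, |δ n e| ≤ 1)
    (hsum : Tendsto (fun n : ℕ => (∑ e, off (δ n) e ^ 2) / n) atTop (𝓝 0))
    (htr : Tendsto (fun n : ℕ => (∑ i : Fin n, δ n s(i, i)) / n) atTop (𝓝 0))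
    (ε : ℝ) (hε : 0 < ε) :
    ∀ᶠ n : ℕ in atTop, ∀ k : ℕ, 1 ≤ k → prob (δ n) (E n k) ≤
      (2 : ℝ) ^ (-((c - ε) * n + (1 / 2 - ε) * (k : ℝ) ^ 2)) := by
  have hl := log2_pos
  set η : ℝ := ε / 3 with hη
  have hη0 : 0 < η := by positivity
  obtain ⟨r, hr⟩ := exists_nat_ge (2 / η)
  have hr' : 2 ≤ r * η := by
    rw [div_le_iff₀ hη0] at hr
    exact hr
  have hc : (0 : ℝ) < 2 * Real.log 2 / ((r : ℝ) + 1) ^ 2 := by positivity
  filter_upwards [hE η hη0, hsum.eventually (gt_mem_nhds hc),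
    tendsto_cast_atTop (η / 2) (by positivity) 1, eventually_ge_atTop 1,
    prob_dg_le δ hδ htr (η / 2 * Real.log 2) (by positivity)] with n h1 h2 h3 hn1 hdg' k hk
  have hn0 : (0 : ℝ) < n := by
    have : 0 < n := hn1
    exact_mod_cast this
  have hk0 : (0 : ℝ) ≤ (k : ℝ) ^ 2 := sq_nonneg _
  have hexp : ∀ x : ℝ, Real.exp (Real.log 2 * x) = (2 : ℝ) ^ x := fun x =>
    (Real.rpow_def_of_pos (by norm_num) x).symm
  have hdg : prob (dg (δ n)) (E n k) ≤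
      (2 : ℝ) ^ (η / 2 * n + -((c - η) * n + (1 / 2 - η) * (k : ℝ) ^ 2)) := by
    refine (hdg' (E n k) (hperm n k)).trans ((mul_le_mul_of_nonneg_left (h1 k hk) (Real.exp_pos _).le).trans ?_)
    rw [show η / 2 * Real.log 2 * n = Real.log 2 * (η / 2 * n) by ring, hexp,
      ← Real.rpow_add (by norm_num)]
  have h4 := prob_le_base (dg_abs (hδ n)) (off_abs (hδ n)) (dg_off (δ n)) (E n k)
    ((2 : ℝ) ^ (η * (n + (k : ℝ) ^ 2))) (Real.rpow_pos_of_pos (by norm_num) _) r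
  rw [dg_add_off] at h4
  refine h4.trans ?_
  have h5 : ((r + 1 : ℕ) : ℝ) ^ 2 * (∑ e, off (δ n) e ^ 2) / 2 ≤ Real.log 2 * n := by
    rw [div_lt_div_iff₀ hn0 (by positivity)] at h2
    push_cast
    nlinarith
  have h6 : Real.exp (((r + 1 : ℕ) : ℝ) ^ 2 * (∑ e, off (δ n) e ^ 2) / 2) /
      ((2 : ℝ) ^ (η * (n + (k : ℝ) ^ 2))) ^ r ≤
      (2 : ℝ) ^ (-((c - 5 / 2 * η) * n + (1 / 2 - 2 * η) * (k : ℝ) ^ 2)) := by
    have h7 : Real.exp (((r + 1 : ℕ) : ℝ) ^ 2 * (∑ e, off (δ n) e ^ 2) / 2) ≤ (2 : ℝ) ^ (n : ℝ) := by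
      rw [← hexp]
      exact Real.exp_le_exp.2 h5
    rw [div_le_iff₀ (by positivity), ← Real.rpow_mul_natCast (by norm_num), ← Real.rpow_add (by norm_num)]
    refine h7.trans (Real.rpow_le_rpow_of_exponent_le (by norm_num) ?_)
    have h8 : 2 * (n + (k : ℝ) ^ 2) ≤ r * η * (n + (k : ℝ) ^ 2) :=
      mul_le_mul_of_nonneg_right hr' (by positivity)
    have h9 : c * n ≤ 1 * n := mul_le_mul_of_nonneg_right hc1 hn0.le
    have h10 : 0 ≤ η * n := by positivity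
    have h11 : 0 ≤ η * (k : ℝ) ^ 2 := by positivity
    nlinarith
  have h9 : (2 : ℝ) ^ (η * (n + (k : ℝ) ^ 2)) * prob (dg (δ n)) (E n k) ≤
      (2 : ℝ) ^ (-((c - 5 / 2 * η) * n + (1 / 2 - 2 * η) * (k : ℝ) ^ 2)) := by
    refine (mul_le_mul_of_nonneg_left hdg (Real.rpow_pos_of_pos (by norm_num) _).le).trans ?_
    rw [← Real.rpow_add (by norm_num)]
    refine Real.rpow_le_rpow_of_exponent_le (by norm_num) (le_of_eq ?_)
    ring
  calc _ ≤ 2 * (2 : ℝ) ^ (-((c - 5 / 2 * η) * n + (1 / 2 - 2 * η) * (k : ℝ) ^ 2)) := by linarith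
    _ = (2 : ℝ) ^ (1 + -((c - 5 / 2 * η) * n + (1 / 2 - 2 * η) * (k : ℝ) ^ 2)) := by
        rw [Real.rpow_add (by norm_num), Real.rpow_one]
    _ ≤ _ := by
        refine Real.rpow_le_rpow_of_exponent_le (by norm_num) ?_
        have h10 : 0 ≤ η * (k : ℝ) ^ 2 := by positivity
        have h11 : ε = 3 * η := by rw [hη]; ring
        rw [h11]
        nlinarith

end Vale.Agent.P160.H462
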