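import Vale.Agent.P160.H462.Prob
import Vale.Agent.P160.Half.Cor1

/-! # P160 / H462: union bounds -/

open Finset

namespace Vale.Agent.P160.H462

/-! ## few small sets -/

theorem card_small_sets {α : Type} [Fintype α] [DecidableEq α] (k : ℕ) :
    (univ.filter fun D : Finset α => D.card ≤ k).card ≤ (Fintype.card α + 1) ^ k := by
  classical
  have h : (univ.filter fun D : Finset α => D.card ≤ k) ⊆
      (univ : Finset (Fin k → Option α)).image fun f => univ.filter fun a => ∃ i, f i = some a := by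
    intro D hD
    have hk := (mem_filter.1 hD).2
    refine mem_image.2 ⟨fun i => if h : (i : ℕ) < D.card then some ((D.equivFin.symm ⟨i, h⟩ : D) : α) else none,
      mem_univ _, ?_⟩
    ext a
    rw [mem_filter]
    constructor
    · rintro ⟨-, i, hi⟩
      beta_reduce at hi
      by_cases h : (i : ℕ) < D.card
      · rw [dif_pos h] at hi
        rw [← Option.some.inj hi]
        exact (D.equivFin.symm ⟨i, h⟩).2
      · rw [dif_neg h] at hi
        exact absurd hi (by simp)
    · intro ha
      refine ⟨mem_univ _, ⟨(D.equivFin ⟨a, ha⟩ : ℕ), lt_of_lt_of_le (D.equivFin ⟨a, ha⟩).2 hk⟩, ?_⟩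
      beta_reduce
      rw [dif_pos (D.equivFin ⟨a, ha⟩).2]
      congr 1
      have : (⟨(D.equivFin ⟨a, ha⟩ : ℕ), (D.equivFin ⟨a, ha⟩).2⟩ : Fin D.card) = D.equivFin ⟨a, ha⟩ := rfl
      rw [this, Equiv.symm_apply_apply]
  refine (card_le_card h).trans (card_image_le.trans ?_)
  rw [card_univ, Fintype.card_fun, Fintype.card_option, Fintype.card_fin]

/-! ## entropy bound for large sets -/

theorem card_large_entropy (n : ℕ) (β : ℝ) (h0 : 0 < β) (h1 : β ≤ 1 / 2) :
    ((univ.filter fun T : Finset (Fin n) => (1 - β) * n ≤ (T.card : ℝ)).card : ℝ) ≤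
      Real.exp (n * Real.binEntropy β) := by
  classical
  have hb : 0 < 1 - β := by linarith
  have hsum : ∑ T ∈ (univ : Finset (Fin n)).powerset, (1 - β) ^ T.card * β ^ ((univ : Finset (Fin n)).card - T.card) = 1 := by
    rw [Finset.sum_pow_mul_eq_add_pow, sub_add_cancel, one_pow]
  have hterm : ∀ T ∈ univ.filter fun T : Finset (Fin n) => (1 - β) * n ≤ (T.card : ℝ),
      Real.exp (-(n * Real.binEntropy β)) ≤ (1 - β) ^ T.card * β ^ ((univ : Finset (Fin n)).card - T.card) := by
    intro T hT
    have hT' := (mem_filter.1 hT).2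
    have hTn : T.card ≤ n := by
      have := card_le_univ T
      rwa [Fintype.card_fin] at this
    rw [card_univ, Fintype.card_fin]
    have e1 : (1 - β) ^ T.card * β ^ (n - T.card) =
        Real.exp (T.card * Real.log (1 - β) + ((n : ℝ) - T.card) * Real.log β) := by
      rw [Real.exp_add, ← Nat.cast_sub hTn, mul_comm (T.card : ℝ), mul_comm (((n - T.card : ℕ)) : ℝ),
        Real.exp_mul, Real.exp_mul, Real.exp_log hb, Real.exp_log h0, Real.rpow_natCast, Real.rpow_natCast]
    rw [e1]
    refine Real.exp_le_exp.2 ?_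
    unfold Real.binEntropy
    rw [Real.log_inv, Real.log_inv]
    have h2 : Real.log β ≤ Real.log (1 - β) := Real.log_le_log h0 (by linarith)
    nlinarith [mul_nonneg (sub_nonneg.2 hT') (sub_nonneg.2 h2)]
  have h3 : ((univ.filter fun T : Finset (Fin n) => (1 - β) * n ≤ (T.card : ℝ)).card : ℝ) *
      Real.exp (-(n * Real.binEntropy β)) ≤ 1 := by
    rw [← nsmul_eq_mul, ← sum_const]
    refine le_trans (le_trans (sum_le_sum hterm) ?_) (le_of_eq hsum)
    refine sum_le_sum_of_subset_of_nonneg (fun T _ => mem_powerset.2 (subset_univ _)) fun T _ _ => by positivity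
  rw [Real.exp_neg, ← div_eq_mul_inv, div_le_one (Real.exp_pos _)] at h3
  exact h3

/-! ## uniform probability of the changed event -/

variable {n : ℕ}

theorem prob_zero_nonneg (E : Set (Bits n)) : 0 ≤ prob (0 : Sym2 (Fin n) → ℝ) E :=
  prob_nonneg (fun e => by simp) E

theorem prob_zero_mono {E F : Set (Bits n)} (h : E ⊆ F) :
    prob (0 : Sym2 (Fin n) → ℝ) E ≤ prob (0 : Sym2 (Fin n) → ℝ) F :=
  prob_mono (fun e => by simp) h

theorem prob_change_le (E : Set (Bits n)) (k : ℕ) :
    prob (0 : Sym2 (Fin n) → ℝ) {b | ∃ b' : Bits n, (univ.filter fun e => b e ≠ b' e).card ≤ k ∧ b' ∈ E} ≤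
      ((Fintype.card (Sym2 (Fin n)) : ℝ) + 1) ^ k * prob (0 : Sym2 (Fin n) → ℝ) E := by
  classical
  rw [prob_zero, prob_zero, ← mul_div_assoc]
  refine div_le_div_of_nonneg_right ?_ (by positivity)
  have h : (univ.filter fun b : Bits n => b ∈ {b | ∃ b' : Bits n, (univ.filter fun e => b e ≠ b' e).card ≤ k ∧ b' ∈ E}) ⊆
      ((univ.filter fun D : Finset (Sym2 (Fin n)) => D.card ≤ k) ×ˢ (univ.filter fun b : Bits n => b ∈ E)).image
        fun x => fun e => if e ∈ x.1 then !(x.2 e) else x.2 e := by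
    intro b hb
    obtain ⟨b', h1, h2⟩ := (mem_filter.1 hb).2
    refine mem_image.2 ⟨(univ.filter fun e => b e ≠ b' e, b'), mem_product.2
      ⟨mem_filter.2 ⟨mem_univ _, h1⟩, mem_filter.2 ⟨mem_univ _, h2⟩⟩, ?_⟩
    funext e
    by_cases he : b e ≠ b' e
    · have : e ∈ univ.filter fun e => b e ≠ b' e := mem_filter.2 ⟨mem_univ _, he⟩
      simp only [this, if_true]
      cases hb : b e <;> cases hb' : b' e <;> simp_all
    · have : e ∉ univ.filter fun e => b e ≠ b' e := fun hh => he (mem_filter.1 hh).2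
      simp only [this, if_false]
      push Not at he
      exact he.symm
  have h2 := (card_le_card h).trans card_image_le
  rw [card_product] at h2
  have h3 := h2.trans (Nat.mul_le_mul_right _ (card_small_sets (α := Sym2 (Fin n)) k))
  exact_mod_cast h3

/-- union over sets `T` -/
theorem prob_biUnion_le (S : Finset (Finset (Fin n))) (P : Finset (Fin n) → Set (Bits n)) (x : ℝ)
    (hx : ∀ T ∈ S, prob (0 : Sym2 (Fin n) → ℝ) (P T) ≤ x) :
    prob (0 : Sym2 (Fin n) → ℝ) {b | ∃ T ∈ S, b ∈ P T} ≤ S.card * x := by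
  classical
  have h : (univ.filter fun b : Bits n => b ∈ {b | ∃ T ∈ S, b ∈ P T}) ⊆
      S.biUnion fun T => univ.filter fun b => b ∈ P T := by
    intro b hb
    obtain ⟨T, hT, hb'⟩ := (mem_filter.1 hb).2
    exact mem_biUnion.2 ⟨T, hT, mem_filter.2 ⟨mem_univ _, hb'⟩⟩
  have h2 := (card_le_card h).trans card_biUnion_le
  have h3 : (((univ.filter fun b : Bits n => b ∈ {b | ∃ T ∈ S, b ∈ P T}).card : ℕ) : ℝ) ≤
      ∑ T ∈ S, ((univ.filter fun b : Bits n => b ∈ P T).card : ℝ) := by exact_mod_cast h2
  rw [prob_zero]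
  calc _ ≤ (∑ T ∈ S, ((univ.filter fun b : Bits n => b ∈ P T).card : ℝ)) / 2 ^ Fintype.card (Sym2 (Fin n)) :=
        div_le_div_of_nonneg_right h3 (by positivity)
    _ = ∑ T ∈ S, prob (0 : Sym2 (Fin n) → ℝ) (P T) := by
        rw [sum_div]
        exact sum_congr rfl fun T _ => by rw [prob_zero]
    _ ≤ ∑ T ∈ S, x := sum_le_sum hx
    _ = _ := by rw [sum_const, nsmul_eq_mul]

/-! ## principal submatrices -/

/-- a family of matrices which is compatible with restriction -/
def Nat' (M : ∀ n, Bits n → Matrix (Fin n) (Fin n) ℤ) : Prop :=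
  ∀ (m n : ℕ) (e : Fin m → Fin n) (b : Bits n), (M n b).submatrix e e = M m fun z => b (z.map e)

theorem nat_sign : Nat' fun _ => signMat := by
  intro m n e b
  ext i j
  rfl

theorem nat_bit : Nat' fun _ => bitMat := by
  intro m n e b
  ext i j
  rfl

/-- the probability that the principal submatrix on `T` is singular -/
theorem prob_prin (M : ∀ n, Bits n → Matrix (Fin n) (Fin n) ℤ) (hM : Nat' M) (T : Finset (Fin n)) :
    prob (0 : Sym2 (Fin n) → ℝ) {b | (prin (M n b) T).det = 0} =
      prob (0 : Sym2 (Fin T.card) → ℝ) {b | (M T.card b).det = 0} := by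
  classical
  set e : Fin T.card ↪o Fin n := T.orderEmbOfFin rfl with he
  have h1 : ∀ b : Bits n, (prin (M n b) T).det = 0 ↔ (M T.card (b ∘ Sym2.map e)).det = 0 := by
    intro b
    have h2 : (prin (M n b) T).submatrix (T.orderIsoOfFin rfl) (T.orderIsoOfFin rfl) =
        M T.card (b ∘ Sym2.map e) := by
      have h3 := hM T.card n e b
      rw [← (show (fun z => b (Sym2.map e z)) = b ∘ Sym2.map e from rfl), ← h3]
      ext i j
      rfl
    rw [← h2]
    have h4 := Matrix.det_submatrix_equiv_self (T.orderIsoOfFin rfl).toEquiv (prin (M n b) T)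
    rw [← h4]
    rfl
  have hinj : Function.Injective (Sym2.map (e : Fin T.card → Fin n)) := Sym2.map.injective e.injective
  have h5 := Half.Cor1.card_comp (Sym2.map (e : Fin T.card → Fin n)) hinj
    (fun b : Bits T.card => (M T.card b).det = 0)
  rw [prob_zero, prob_zero, div_eq_div_iff (by positivity) (by positivity)]
  have h6 : (univ.filter fun b : Bits n => b ∈ {b | (prin (M n b) T).det = 0}) =
      univ.filter fun b : Bits n => (M T.card (b ∘ Sym2.map e)).det = 0 := by
    ext b
    rw [mem_filter, mem_filter]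
    exact and_congr_right fun _ => h1 b
  rw [h6]
  exact_mod_cast h5

end Vale.Agent.P160.H462
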