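import Vale.Agent.P160.H462.Events

/-! # P160 / H462: product measures, change of measure -/

open Finset

namespace Vale.Agent.P160.H462

variable {n : ℕ}

/-- the sign of a bit -/
def sg (x : Bool) : ℝ := if x then -1 else 1

/-- weight -/
noncomputable def wt (δ : Sym2 (Fin n) → ℝ) (b : Bits n) : ℝ := ∏ e, (1 + δ e * sg (b e)) / 2

theorem prob_eq (δ : Sym2 (Fin n) → ℝ) (E : Set (Bits n)) [DecidablePred (· ∈ E)] :
    prob δ E = ∑ b ∈ univ.filter (· ∈ E), wt δ b := by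
  classical
  unfold prob
  rw [sum_filter]
  refine sum_congr rfl fun b _ => ?_
  by_cases h : b ∈ E
  · rw [if_pos h, if_pos h]; rfl
  · rw [if_neg h, if_neg h]

theorem wt_nonneg {δ : Sym2 (Fin n) → ℝ} (hδ : ∀ e, |δ e| ≤ 1) (b : Bits n) : 0 ≤ wt δ b := by
  refine prod_nonneg fun e _ => ?_
  have h := abs_le.1 (hδ e)
  unfold sg
  split_ifs <;> linarith [h.1, h.2]

theorem prob_nonneg {δ : Sym2 (Fin n) → ℝ} (hδ : ∀ e, |δ e| ≤ 1) (E : Set (Bits n)) :
    0 ≤ prob δ E := by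
  classical
  rw [prob_eq]
  exact sum_nonneg fun b _ => wt_nonneg hδ b

theorem prob_mono {δ : Sym2 (Fin n) → ℝ} (hδ : ∀ e, |δ e| ≤ 1) {E F : Set (Bits n)} (h : E ⊆ F) :
    prob δ E ≤ prob δ F := by
  classical
  rw [prob_eq, prob_eq]
  refine sum_le_sum_of_subset_of_nonneg ?_ fun b _ _ => wt_nonneg hδ b
  intro b hb
  rw [mem_filter] at hb ⊢
  exact ⟨hb.1, h hb.2⟩

theorem prob_union_le {δ : Sym2 (Fin n) → ℝ} (hδ : ∀ e, |δ e| ≤ 1) (E F : Set (Bits n)) :
    prob δ (E ∪ F) ≤ prob δ E + prob δ F := by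
  classical
  rw [prob_eq, prob_eq, prob_eq]
  have h : (univ.filter fun b : Bits n => b ∈ E ∪ F) =
      (univ.filter fun b => b ∈ E) ∪ (univ.filter fun b => b ∈ F) := by
    ext b; simp
  rw [h]
  have h1 := Finset.sum_union_inter (s₁ := univ.filter fun b : Bits n => b ∈ E)
    (s₂ := univ.filter fun b : Bits n => b ∈ F) (f := wt δ)
  have h2 : 0 ≤ ∑ b ∈ (univ.filter fun b : Bits n => b ∈ E) ∩ (univ.filter fun b => b ∈ F), wt δ b :=
    sum_nonneg fun b _ => wt_nonneg hδ b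
  linarith

/-- uniform measure -/
theorem wt_zero (b : Bits n) : wt (0 : Sym2 (Fin n) → ℝ) b = 1 / 2 ^ Fintype.card (Sym2 (Fin n)) := by
  unfold wt
  simp [prod_const, card_univ]

theorem prob_zero (E : Set (Bits n)) [DecidablePred (· ∈ E)] :
    prob (0 : Sym2 (Fin n) → ℝ) E = ((univ.filter (· ∈ E)).card : ℝ) / 2 ^ Fintype.card (Sym2 (Fin n)) := by
  rw [prob_eq, sum_congr rfl fun b _ => wt_zero b, sum_const, nsmul_eq_mul]
  ring

/-- the density of `δ` relative to the uniform measure -/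
noncomputable def dens (δ : Sym2 (Fin n) → ℝ) (b : Bits n) : ℝ := ∏ e, (1 + δ e * sg (b e))

theorem wt_eq (δ : Sym2 (Fin n) → ℝ) (b : Bits n) :
    wt δ b = dens δ b * wt (0 : Sym2 (Fin n) → ℝ) b := by
  unfold wt dens
  rw [← prod_mul_distrib]
  refine prod_congr rfl fun e _ => ?_
  simp
  ring

/-- sums of products -/
theorem sum_prod (g : Sym2 (Fin n) → Bool → ℝ) :
    ∑ b : Bits n, ∏ e, g e (b e) = ∏ e, (g e false + g e true) := by
  have h := (Finset.prod_univ_sum (t := fun _ : Sym2 (Fin n) => (univ : Finset Bool)) (f := g)).symm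
  rw [Fintype.piFinset_univ] at h
  rw [h]
  refine prod_congr rfl fun e _ => ?_
  rw [Fintype.sum_bool]
  ring

theorem cosh_bound (r x : ℝ) (hx : |x| ≤ 1) (m : ℕ) (hr : (m : ℝ) = r) :
    ((1 + x) ^ m + (1 - x) ^ m) / 2 ≤ Real.exp (r ^ 2 * x ^ 2 / 2) := by
  have h := abs_le.1 hx
  have h1 : (1 + x) ^ m ≤ Real.exp (r * x) := by
    have : 1 + x ≤ Real.exp x := by linarith [Real.add_one_le_exp x]
    calc (1 + x) ^ m ≤ (Real.exp x) ^ m := pow_le_pow_left₀ (by linarith [h.1]) this m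
      _ = Real.exp (r * x) := by rw [← Real.exp_nat_mul, hr]
  have h2 : (1 - x) ^ m ≤ Real.exp (-(r * x)) := by
    have : 1 - x ≤ Real.exp (-x) := by linarith [Real.add_one_le_exp (-x)]
    calc (1 - x) ^ m ≤ (Real.exp (-x)) ^ m := pow_le_pow_left₀ (by linarith [h.2]) this m
      _ = Real.exp (-(r * x)) := by rw [← Real.exp_nat_mul, hr]; ring_nf
  have h3 := Real.cosh_le_exp_half_sq (r * x)
  rw [Real.cosh_eq] at h3
  calc ((1 + x) ^ m + (1 - x) ^ m) / 2 ≤ (Real.exp (r * x) + Real.exp (-(r * x))) / 2 := by linarith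
    _ ≤ Real.exp ((r * x) ^ 2 / 2) := h3
    _ = _ := by rw [mul_pow]

/-- moments of the density -/
theorem dens_moment {δ : Sym2 (Fin n) → ℝ} (hδ : ∀ e, |δ e| ≤ 1) (m : ℕ) :
    ∑ b : Bits n, dens δ b ^ m * wt (0 : Sym2 (Fin n) → ℝ) b ≤
      Real.exp ((m : ℝ) ^ 2 * (∑ e, δ e ^ 2) / 2) := by
  have h1 : ∀ b : Bits n, dens δ b ^ m * wt (0 : Sym2 (Fin n) → ℝ) b =
      ∏ e, (fun e x => (1 + δ e * sg x) ^ m / 2) e (b e) := by
    intro b
    unfold dens wt
    rw [← prod_pow, ← prod_mul_distrib]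
    refine prod_congr rfl fun e _ => ?_
    simp
    ring
  rw [sum_congr rfl fun b _ => h1 b, sum_prod (fun e x => (1 + δ e * sg x) ^ m / 2)]
  have h2 : ((m : ℝ) ^ 2 * (∑ e, δ e ^ 2) / 2) = ∑ e, ((m : ℝ) ^ 2 * δ e ^ 2 / 2) := by
    rw [mul_sum, sum_div]
  rw [h2, Real.exp_sum]
  refine prod_le_prod (fun e _ => ?_) fun e _ => ?_
  · have h := abs_le.1 (hδ e)
    have h3 : 0 ≤ 1 + δ e * sg false := by simp only [sg]; simp; linarith [h.1]
    have h4 : 0 ≤ 1 + δ e * sg true := by simp only [sg]; simp; linarith [h.2]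
    positivity
  · refine le_trans (le_of_eq ?_) (cosh_bound m (δ e) (hδ e) m rfl)
    simp only [sg]
    simp
    ring

/-- **change of measure**: `P_δ(E) ≤ t U(E) + t^{-r} exp((r+1)² S / 2)` -/
theorem prob_le_of_uniform {δ : Sym2 (Fin n) → ℝ} (hδ : ∀ e, |δ e| ≤ 1) (E : Set (Bits n)) (t : ℝ)
    (ht : 0 < t) (r : ℕ) :
    prob δ E ≤ t * prob 0 E + Real.exp (((r + 1 : ℕ) : ℝ) ^ 2 * (∑ e, δ e ^ 2) / 2) / t ^ r := by
  classical
  have hz : ∀ e : Sym2 (Fin n), |(0 : Sym2 (Fin n) → ℝ) e| ≤ 1 := fun e => by simp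
  rw [prob_eq, prob_eq]
  have key : ∀ b : Bits n, wt δ b ≤ t * wt (0 : Sym2 (Fin n) → ℝ) b +
      dens δ b ^ (r + 1) * wt (0 : Sym2 (Fin n) → ℝ) b / t ^ r := by
    intro b
    have hw := wt_nonneg hz b
    have hd : 0 ≤ dens δ b := by
      refine prod_nonneg fun e _ => ?_
      have h := abs_le.1 (hδ e)
      unfold sg
      split_ifs <;> linarith [h.1, h.2]
    rw [wt_eq]
    by_cases hcase : dens δ b ≤ t
    · have h1 := mul_le_mul_of_nonneg_right hcase hw
      have h2 : 0 ≤ dens δ b ^ (r + 1) * wt (0 : Sym2 (Fin n) → ℝ) b / t ^ r := by positivity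
      linarith
    · push Not at hcase
      have h1 : dens δ b * t ^ r ≤ dens δ b ^ (r + 1) := by
        rw [pow_succ, mul_comm]
        exact mul_le_mul_of_nonneg_right (pow_le_pow_left₀ ht.le hcase.le r) hd
      have h2 : dens δ b ≤ dens δ b ^ (r + 1) / t ^ r := by
        rw [le_div_iff₀ (by positivity)]; exact h1
      have h3 := mul_le_mul_of_nonneg_right h2 hw
      have h4 : 0 ≤ t * wt (0 : Sym2 (Fin n) → ℝ) b := by positivity
      calc dens δ b * wt (0 : Sym2 (Fin n) → ℝ) b ≤ dens δ b ^ (r + 1) / t ^ r * wt 0 b := h3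
        _ = dens δ b ^ (r + 1) * wt (0 : Sym2 (Fin n) → ℝ) b / t ^ r := by ring
        _ ≤ _ := by linarith
  calc ∑ b ∈ univ.filter (· ∈ E), wt δ b
      ≤ ∑ b ∈ univ.filter (· ∈ E), (t * wt (0 : Sym2 (Fin n) → ℝ) b +
        dens δ b ^ (r + 1) * wt (0 : Sym2 (Fin n) → ℝ) b / t ^ r) := sum_le_sum fun b _ => key b
    _ = t * ∑ b ∈ univ.filter (· ∈ E), wt (0 : Sym2 (Fin n) → ℝ) b +
        (∑ b ∈ univ.filter (· ∈ E), dens δ b ^ (r + 1) * wt (0 : Sym2 (Fin n) → ℝ) b) / t ^ r := by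
        rw [sum_add_distrib, mul_sum, sum_div]
    _ ≤ _ := by
        refine add_le_add le_rfl (div_le_div_of_nonneg_right ?_ (by positivity))
        refine le_trans (sum_le_sum_of_subset_of_nonneg (filter_subset _ _) fun b _ _ => ?_)
          (dens_moment hδ (r + 1))
        have hw := wt_nonneg hz b
        have hd : 0 ≤ dens δ b := by
          refine prod_nonneg fun e _ => ?_
          have h := abs_le.1 (hδ e)
          unfold sg
          split_ifs <;> linarith [h.1, h.2]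
        positivity

end Vale.Agent.P160.H462
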