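import Mathlib
import Vale.Agent.P160.Half.Corank
import Vale.Agent.P160.Half.End.Final
import Vale.Agent.P160.Half.SgnRed
import Vale.Agent.P160.H462.Prob

/-! # P160: ranks of uniform symmetric bit and sign matrices -/

set_option linter.unusedSectionVars false

namespace Vale.Agent.P160.H462

open Finset Matrix Filter

/-! ## Linear algebra -/

theorem rank_add_le293 {F : Type*} [Field F] {m n : Type*} [Fintype m] [Fintype n]
    (A B : Matrix m n F) : (A + B).rank ≤ A.rank + B.rank := by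
  unfold Matrix.rank
  rw [Matrix.mulVecLin_add]
  refine le_trans (Submodule.finrank_mono (t := LinearMap.range A.mulVecLin ⊔
    LinearMap.range B.mulVecLin) ?_) (Submodule.finrank_add_le_finrank_add_finrank _ _)
  rintro _ ⟨x, rfl⟩
  rw [LinearMap.add_apply]
  exact Submodule.add_mem_sup ⟨x, rfl⟩ ⟨x, rfl⟩

theorem rank_smul_le293 {F : Type*} [Field F] {m n : Type*} [Fintype m] [Fintype n]
    (c : F) (A : Matrix m n F) : (c • A).rank ≤ A.rank := by
  unfold Matrix.rank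
  refine Submodule.finrank_mono ?_
  rintro _ ⟨x, rfl⟩
  refine ⟨c • x, ?_⟩
  rw [Matrix.mulVecLin_apply, Matrix.mulVecLin_apply, Matrix.mulVec_smul, Matrix.smul_mulVec]

/-- `rank B ≤ rank (J - 2 B) + 1` if `2` is invertible -/
theorem rank_bit_le_sign {F : Type*} [Field F] (h2 : (2 : F) ≠ 0) {m n : Type*} [Fintype m]
    [Fintype n] (B S : Matrix m n F) (h : ∀ i j, S i j = 1 - 2 * B i j) :
    B.rank ≤ S.rank + 1 := by
  have h1 : B = (2 : F)⁻¹ • (vecMulVec (fun _ => (1 : F)) (fun _ => (1 : F)) + (-1 : F) • S) := by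
    ext i j
    rw [Matrix.smul_apply, Matrix.add_apply, vecMulVec_apply, Matrix.smul_apply, h i j,
      smul_eq_mul, smul_eq_mul]
    field_simp
    ring
  calc B.rank = ((2 : F)⁻¹ • (vecMulVec (fun _ => (1 : F)) (fun _ => (1 : F)) +
        (-1 : F) • S)).rank := congrArg Matrix.rank h1
    _ ≤ (vecMulVec (fun _ => (1 : F)) (fun _ => (1 : F)) + (-1 : F) • S).rank :=
        rank_smul_le293 _ _
    _ ≤ (vecMulVec (fun _ => (1 : F)) (fun _ => (1 : F)) : Matrix m n F).rank +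
        ((-1 : F) • S).rank := rank_add_le293 _ _
    _ ≤ 1 + S.rank := add_le_add (rank_vecMulVec_le _ _) (rank_smul_le293 _ _)
    _ = S.rank + 1 := add_comm _ _

/-! ## (A) Low rank modulo a prime -/

theorem half_pow_of_count {n N c : ℕ} (h : N * 2 ^ (1 * n) ≤ 2 ^ c) :
    ((N : ℝ) / 2 ^ c) ≤ (1 / 2) ^ n := by
  rw [one_mul] at h
  have h1 : (N : ℝ) * 2 ^ n ≤ 2 ^ c := by exact_mod_cast h
  rw [div_le_iff₀ (by positivity), one_div, inv_pow, ← div_eq_inv_mul, le_div_iff₀ (by positivity)]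
  exact h1

theorem lowRank_bit (n : ℕ) (hn : 1 ≤ n) :
    prob (0 : Sym2 (Fin n) → ℝ) (LowRank bitMat 1) ≤ (1 / 2) ^ n := by
  classical
  rw [prob_zero]
  set k : ℕ := ⌊6 * √(n : ℝ)⌋₊ + 1 with hk
  have hkr : 6 * √(n : ℝ) < k := by
    rw [hk]; push_cast; exact Nat.lt_floor_add_one _
  have hsq : √(n : ℝ) ^ 2 = n := Real.sq_sqrt (by positivity)
  have hk2 : 2 * (1 + 12) * Fintype.card (Fin n) ≤ k ^ 2 := by
    rw [Fintype.card_fin]
    have h1 : (26 : ℝ) * n ≤ (k : ℝ) ^ 2 := by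
      have h2 : (6 * √(n : ℝ)) ^ 2 ≤ (k : ℝ) ^ 2 := pow_le_pow_left₀ (by positivity) hkr.le 2
      rw [mul_pow, hsq] at h2
      have : (0 : ℝ) ≤ n := by positivity
      linarith
    have h3 : (26 : ℕ) * n ≤ k ^ 2 := by exact_mod_cast h1
    omega
  have h := Half.card_corank_le_exp (α := Fin n) 1 k (by rw [Fintype.card_fin]; exact hn) hk2
  rw [Fintype.card_fin] at h
  refine half_pow_of_count (le_trans (Nat.mul_le_mul_right _ (card_le_card ?_)) h)
  intro b hb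
  rw [mem_filter] at hb ⊢
  refine ⟨mem_univ _, ?_⟩
  obtain ⟨T, p, hp, -, hT⟩ := hb.2
  refine ⟨p, hp, T, ?_⟩
  have h1 : (Half.prin ((Half.matZ b).map (Int.cast : ℤ → ZMod p)) T).rank =
      ((prin (bitMat b) T).map (Int.cast : ℤ → ZMod p)).rank := rfl
  rw [h1]
  set r := ((prin (bitMat b) T).map (Int.cast : ℤ → ZMod p)).rank
  have h2 : (⌊6 * √(n : ℝ)⌋₊ : ℝ) ≤ 6 * √(n : ℝ) := Nat.floor_le (by positivity)
  have h3 : ((r + ⌊6 * √(n : ℝ)⌋₊ : ℕ) : ℝ) < T.card := by push_cast; linarith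
  have h4 : r + ⌊6 * √(n : ℝ)⌋₊ < T.card := by exact_mod_cast h3
  omega

theorem lowRank_sign (n : ℕ) (hn : 2 ≤ n) :
    prob (0 : Sym2 (Fin n) → ℝ) (LowRank signMat 2) ≤ (1 / 2) ^ n := by
  classical
  rw [prob_zero]
  set k : ℕ := ⌊6 * √(n : ℝ)⌋₊ with hk
  have hkr : 6 * √(n : ℝ) < k + 1 := Nat.lt_floor_add_one _
  have hsq : √(n : ℝ) ^ 2 = n := Real.sq_sqrt (by positivity)
  have hn2 : (2 : ℝ) ≤ n := by exact_mod_cast hn
  have hs14 : (1.4 : ℝ) ≤ √(n : ℝ) := by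
    rw [Real.le_sqrt' (by norm_num)]
    norm_num
    linarith
  have hk2 : 2 * (1 + 12) * Fintype.card (Fin n) ≤ k ^ 2 := by
    rw [Fintype.card_fin]
    have h1 : (26 : ℝ) * n ≤ (k : ℝ) ^ 2 := by
      have h2 : (6 * √(n : ℝ) - 1) ^ 2 ≤ (k : ℝ) ^ 2 :=
        pow_le_pow_left₀ (by linarith) (by linarith) 2
      nlinarith
    have h3 : (26 : ℕ) * n ≤ k ^ 2 := by exact_mod_cast h1
    omega
  have h := Half.card_corank_le_exp (α := Fin n) 1 k (by rw [Fintype.card_fin]; omega) hk2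
  rw [Fintype.card_fin] at h
  refine half_pow_of_count (le_trans (Nat.mul_le_mul_right _ (card_le_card ?_)) h)
  intro b hb
  rw [mem_filter] at hb ⊢
  refine ⟨mem_univ _, ?_⟩
  obtain ⟨T, p, hp, hpd, hT⟩ := hb.2
  refine ⟨p, hp, T, ?_⟩
  have h1 : (Half.prin ((Half.matZ b).map (Int.cast : ℤ → ZMod p)) T).rank =
      ((prin (bitMat b) T).map (Int.cast : ℤ → ZMod p)).rank := rfl
  have hp2 : (2 : ZMod p) ≠ 0 := by
    intro h0
    apply hpd
    have h5 : ((2 : ℕ) : ZMod p) = 0 := by exact_mod_cast h0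
    exact (ZMod.natCast_eq_zero_iff 2 p).1 h5
  have h6 := rank_bit_le_sign hp2 ((prin (bitMat b) T).map (Int.cast : ℤ → ZMod p))
    ((prin (signMat b) T).map (Int.cast : ℤ → ZMod p)) (fun i j => by
      show (((if b s((i : Fin n), (j : Fin n)) then (-1 : ℤ) else 1) : ℤ) : ZMod p) =
        1 - 2 * (((if b s((i : Fin n), (j : Fin n)) then (1 : ℤ) else 0) : ℤ) : ZMod p)
      split_ifs
      · push_cast; ring
      · push_cast; ring)
  rw [h1]
  set r := ((prin (bitMat b) T).map (Int.cast : ℤ → ZMod p)).rank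
  set r' := ((prin (signMat b) T).map (Int.cast : ℤ → ZMod p)).rank
  have h2 : (⌊6 * √(n : ℝ)⌋₊ : ℝ) ≤ 6 * √(n : ℝ) := Nat.floor_le (by positivity)
  have h3 : ((r' + ⌊6 * √(n : ℝ)⌋₊ : ℕ) : ℝ) < T.card := by push_cast; linarith
  have h4 : r' + ⌊6 * √(n : ℝ)⌋₊ < T.card := by exact_mod_cast h3
  omega

/-! ## (B) All coranks -/

/-- density of corank at least `k` -/
noncomputable def dcor (n k : ℕ) : ℝ := by
  classical exact ((univ.filter fun b : Sym2 (Fin n) → Bool =>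
    (Half.End288.mQ b).rank + k ≤ n).card : ℝ) / 2 ^ Fintype.card (Sym2 (Fin n))

theorem dcor_le_sum (n k : ℕ) : dcor n k ≤ ∑ j ∈ Finset.Icc k n, Half.End288.a n j := by
  classical
  unfold dcor Half.End288.a
  rw [← Finset.sum_div]
  refine div_le_div_of_nonneg_right ?_ (by positivity)
  have h : (univ.filter fun b : Sym2 (Fin n) → Bool => (Half.End288.mQ b).rank + k ≤ n) ⊆
      (Finset.Icc k n).biUnion fun j => univ.filter fun b : Sym2 (Fin n) → Bool =>
        (Half.End288.mQ b).rank + j = n := by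
    intro b hb
    have hb' := (mem_filter.1 hb).2
    refine mem_biUnion.2 ⟨n - (Half.End288.mQ b).rank, mem_Icc.2 ⟨by omega, by omega⟩,
      mem_filter.2 ⟨mem_univ _, by omega⟩⟩
  have h2 := (card_le_card h).trans card_biUnion_le
  have h3 : (∑ j ∈ Finset.Icc k n, (univ.filter fun b : Sym2 (Fin n) → Bool =>
      (Half.End288.mQ b).rank + j = n).card) = ∑ j ∈ Finset.Icc k n, Half.End288.N n j := by
    refine sum_congr rfl fun j _ => ?_
    unfold Half.End288.N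
    congr!
  rw [h3] at h2
  have h4 : ((univ.filter fun b : Sym2 (Fin n) → Bool =>
      (Half.End288.mQ b).rank + k ≤ n).card : ℝ) ≤
      ((∑ j ∈ Finset.Icc k n, Half.End288.N n j : ℕ) : ℝ) := by exact_mod_cast h2
  rw [Nat.cast_sum] at h4
  refine le_trans (le_of_eq ?_) h4
  congr!

theorem prod_pow (m : ℝ) (s : ℕ) : ∏ t ∈ range s, (m / 2 ^ (t + 1)) =
    m ^ s * (2 : ℝ) ^ (-((s : ℝ) * (s + 1) / 2)) := by
  induction s with
  | zero => simp
  | succ s ih =>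
    rw [prod_range_succ, ih, pow_succ]
    have h : (2 : ℝ) ^ (-(((s + 1 : ℕ) : ℝ) * (((s + 1 : ℕ) : ℝ) + 1) / 2)) =
        (2 : ℝ) ^ (-((s : ℝ) * (s + 1) / 2)) * ((2 : ℝ) ^ (s + 1))⁻¹ := by
      rw [← Real.rpow_natCast 2 (s + 1), ← Real.rpow_neg (by norm_num),
        ← Real.rpow_add (by norm_num)]
      congr 1
      push_cast
      ring
    rw [h]
    field_simp
    ring

theorem ev_log (ε c : ℝ) (hε : 0 < ε) : ∀ᶠ n : ℕ in atTop, 1 ≤ n ∧
    Real.logb 2 n + c + (Real.logb 2 n + 2) ^ 2 / (4 * ε) ≤ ε / 2 * n := by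
  have hl2 : 0 < Real.log 2 := Real.log_pos (by norm_num)
  -- everything is at most `K l^2` for `l ≥ 1`
  set K : ℝ := 1 + |c| + 9 / (4 * ε) with hK
  have hK0 : 0 < K := by positivity
  have hc0 : 0 < ε / 2 * (Real.log 2) ^ 2 / K := by positivity
  have h1 := (Real.isLittleO_pow_log_id_atTop (n := 2)).bound hc0
  have h2 := tendsto_natCast_atTop_atTop (R := ℝ) |>.eventually h1
  filter_upwards [h2, eventually_ge_atTop 3] with n hn hn3
  have hn0 : (0 : ℝ) < n := by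
    have : 0 < n := by omega
    exact_mod_cast this
  have hn' : Real.log n ^ 2 ≤ ε / 2 * (Real.log 2) ^ 2 / K * n := by
    have := hn
    rw [id, Real.norm_of_nonneg (by positivity), Real.norm_of_nonneg (by positivity)] at this
    exact this
  refine ⟨by omega, ?_⟩
  set l := Real.logb 2 n with hl
  have hl1 : 1 ≤ l := by
    rw [hl, Real.le_logb_iff_rpow_le (by norm_num) hn0, Real.rpow_one]
    have : (2 : ℕ) ≤ n := by omega
    exact_mod_cast this
  have hll : Real.log n = l * Real.log 2 := by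
    rw [hl, Real.logb]
    field_simp
  rw [hll] at hn'
  have h5 : K * l ^ 2 ≤ ε / 2 * n := by
    have h6 : (l * Real.log 2) ^ 2 * K ≤ ε / 2 * (Real.log 2) ^ 2 * n := by
      have := mul_le_mul_of_nonneg_right hn' hK0.le
      refine this.trans (le_of_eq ?_)
      field_simp
    have h7 : 0 < (Real.log 2) ^ 2 := by positivity
    have h8 : (Real.log 2) ^ 2 * (K * l ^ 2) ≤ (Real.log 2) ^ 2 * (ε / 2 * n) := by
      linarith [h6]
    exact le_of_mul_le_mul_left h8 h7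
  refine le_trans ?_ h5
  have h9 : l ≤ l ^ 2 := by nlinarith
  have h10 : c ≤ |c| * l ^ 2 := by
    calc c ≤ |c| := le_abs_self c
      _ = |c| * 1 := (mul_one _).symm
      _ ≤ |c| * l ^ 2 := mul_le_mul_of_nonneg_left (by nlinarith) (abs_nonneg c)
  have h11 : (l + 2) ^ 2 / (4 * ε) ≤ 9 / (4 * ε) * l ^ 2 := by
    rw [div_mul_eq_mul_div]
    refine div_le_div_of_nonneg_right ?_ (by positivity)
    nlinarith
  rw [hK]
  linarith

theorem corOne_bound (h : Half.End288.CorOne) (x : ℝ) (hx : 1 / 2 < x) :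
    ∃ C : ℝ, 1 ≤ C ∧ ∀ n, Half.End288.a n 1 ≤ C * x ^ n := by
  have hx0 : 0 < x := by linarith
  obtain ⟨n0, hn0⟩ := eventually_atTop.1 (h x hx)
  set C : ℝ := max 1 ((x ^ n0)⁻¹ ⊔ 1) with hC
  have hC1 : 1 ≤ C := le_max_left _ _
  refine ⟨C, hC1, ?_⟩
  intro n
  rcases Nat.lt_or_ge n n0 with hn | hn
  · refine (Half.End288.a_le_one n 1).trans ?_
    rcases le_total 1 x with h1 | h1
    · exact one_le_mul_of_one_le_of_one_le hC1 (one_le_pow₀ h1)
    · have h2 : x ^ n0 ≤ x ^ n := pow_le_pow_of_le_one hx0.le h1 hn.le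
      have h3 : (x ^ n0)⁻¹ ≤ C := (le_max_left _ _).trans (le_max_right _ _)
      calc (1 : ℝ) = (x ^ n0)⁻¹ * x ^ n0 := (inv_mul_cancel₀ (by positivity)).symm
        _ ≤ C * x ^ n := mul_le_mul h3 h2 (by positivity) (by positivity)
  · have h1 := hn0 n hn
    have h2 : Half.End288.a n 1 ≤ x ^ n := by
      unfold Half.End288.a
      rw [div_le_iff₀ (by positivity)]
      exact h1
    refine h2.trans ?_
    exact le_mul_of_one_le_left (by positivity) hC1

/-- all coranks, the rational version -/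
theorem dcor_le (h : Half.End288.CorOne) (ε : ℝ) (hε : 0 < ε) : ∀ᶠ n : ℕ in atTop, ∀ k : ℕ, 1 ≤ k →
    dcor n k ≤ (2 : ℝ) ^ (-((1 - ε) * n + (1 / 2 - ε) * (k : ℝ) ^ 2)) := by
  -- reduction to small `ε`
  suffices H : ∀ ε : ℝ, 0 < ε → ε ≤ 1 / 4 → ∀ᶠ n : ℕ in atTop, ∀ k : ℕ, 1 ≤ k →
      dcor n k ≤ (2 : ℝ) ^ (-((1 - ε) * n + (1 / 2 - ε) * (k : ℝ) ^ 2)) by
    filter_upwards [H (min ε (1 / 4)) (lt_min hε (by norm_num)) (min_le_right _ _)] with n hn k hk
    refine (hn k hk).trans (Real.rpow_le_rpow_of_exponent_le (by norm_num) ?_)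
    have h1 : min ε (1 / 4) ≤ ε := min_le_left _ _
    have h2 : (0 : ℝ) ≤ n := by positivity
    have h3 : (0 : ℝ) ≤ (k : ℝ) ^ 2 := by positivity
    nlinarith [mul_le_mul_of_nonneg_right h1 h2, mul_le_mul_of_nonneg_right h1 h3]
  clear hε ε
  intro ε hε hε4
  set x : ℝ := (2 : ℝ) ^ (-(1 - ε / 2)) with hxd
  have hx : 1 / 2 < x := by
    rw [hxd, show (1 / 2 : ℝ) = (2 : ℝ) ^ (-1 : ℝ) by rw [Real.rpow_neg_one]; norm_num]
    exact Real.rpow_lt_rpow_of_exponent_lt (by norm_num) (by linarith)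
  obtain ⟨C, hC1, hC⟩ := corOne_bound h x hx
  have hC0 : 0 < C := by linarith
  filter_upwards [ev_log ε (Real.logb 2 C) hε] with n hn k hk
  obtain ⟨hn1, hn⟩ := hn
  have hn0 : (0 : ℝ) < n := by exact_mod_cast hn1
  set l := Real.logb 2 n with hl
  have hl0 : 0 ≤ l := Real.logb_nonneg (by norm_num) (by exact_mod_cast hn1)
  have key : ∀ j ∈ Finset.Icc k n, Half.End288.a n j ≤
      (2 : ℝ) ^ (-((1 - ε) * n + (1 / 2 - ε) * (k : ℝ) ^ 2)) / n := by
    intro j hj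
    rw [Finset.mem_Icc] at hj
    obtain ⟨s, rfl⟩ : ∃ s, j = s + 1 := ⟨j - 1, by omega⟩
    have h1 := Half.End288.a_le C x hx.le hC0.le hC s (n - s)
    rw [Nat.sub_add_cancel (by omega)] at h1
    refine h1.trans ?_
    rw [prod_pow, le_div_iff₀ hn0]
    have e1 : C = (2 : ℝ) ^ Real.logb 2 C := (Real.rpow_logb (by norm_num) (by norm_num) hC0).symm
    have e2 : (n : ℝ) = (2 : ℝ) ^ l := (Real.rpow_logb (by norm_num) (by norm_num) hn0).symm
    have e3 : x ^ n = (2 : ℝ) ^ (-(1 - ε / 2) * n) := by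
      rw [hxd, ← Real.rpow_natCast, ← Real.rpow_mul (by norm_num)]
    have e4 : (2 * (n : ℝ)) ^ s = (2 : ℝ) ^ ((l + 1) * s) := by
      have : (2 * (n : ℝ)) = (2 : ℝ) ^ (l + 1) := by
        rw [Real.rpow_add (by norm_num), Real.rpow_one, ← e2]; ring
      rw [this, ← Real.rpow_natCast, ← Real.rpow_mul (by norm_num)]
    have e5 : C * x ^ n * ((2 * (n : ℝ)) ^ s * (2 : ℝ) ^ (-((s : ℝ) * (s + 1) / 2))) * n =
        (2 : ℝ) ^ (Real.logb 2 C + -(1 - ε / 2) * n + ((l + 1) * s + -((s : ℝ) * (s + 1) / 2)) + l) := by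
      rw [Real.rpow_add (by norm_num), Real.rpow_add (by norm_num), Real.rpow_add (by norm_num),
        Real.rpow_add (by norm_num), ← e1, ← e2, ← e3, ← e4]
    rw [e5]
    refine Real.rpow_le_rpow_of_exponent_le (by norm_num) ?_
    have hks : (k : ℝ) ≤ s + 1 := by exact_mod_cast hj.1
    have hk0 : (0 : ℝ) ≤ k := by positivity
    have hs0 : (0 : ℝ) ≤ s := by positivity
    -- replace k by j
    have h2 : (1 / 2 - ε) * (k : ℝ) ^ 2 ≤ (1 / 2 - ε) * ((s : ℝ) + 1) ^ 2 :=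
      mul_le_mul_of_nonneg_left (pow_le_pow_left₀ hk0 hks 2) (by linarith)
    -- the square
    have h3 : (l + 2) * ((s : ℝ) + 1) ≤ ε * ((s : ℝ) + 1) ^ 2 + (l + 2) ^ 2 / (4 * ε) := by
      have h4 : (l + 2) ^ 2 / (4 * ε) - (l + 2) * ((s : ℝ) + 1) + ε * ((s : ℝ) + 1) ^ 2 =
          ((l + 2) - 2 * ε * ((s : ℝ) + 1)) ^ 2 / (4 * ε) := by
        field_simp
        ring
      have h5 : 0 ≤ ((l + 2) - 2 * ε * ((s : ℝ) + 1)) ^ 2 / (4 * ε) := by positivity
      linarith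
    nlinarith
  refine (dcor_le_sum n k).trans ((Finset.sum_le_sum key).trans ?_)
  rw [Finset.sum_const, nsmul_eq_mul, Nat.card_Icc]
  have hP : 0 ≤ (2 : ℝ) ^ (-((1 - ε) * n + (1 / 2 - ε) * (k : ℝ) ^ 2)) / n := by positivity
  have h6 : ((n + 1 - k : ℕ) : ℝ) ≤ n := by
    have : n + 1 - k ≤ n := by omega
    exact_mod_cast this
  refine (mul_le_mul_of_nonneg_right h6 hP).trans (le_of_eq ?_)
  field_simp

theorem prob_corank_bit (n k : ℕ) : prob (0 : Sym2 (Fin n) → ℝ) (Corank bitMat k) = dcor n k := by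
  classical
  rw [prob_zero]
  unfold dcor
  have h : ∀ b : Bits n, (bitMat b).map (Int.cast : ℤ → ℚ) = Half.End288.mQ b := by
    intro b
    ext i j
    show (((if b s(i, j) then (1 : ℤ) else 0) : ℤ) : ℚ) = if b s(i, j) then (1 : ℚ) else 0
    split_ifs <;> simp
  congr 2
  refine congrArg Finset.card ?_
  ext b
  rw [mem_filter, mem_filter]
  refine and_congr_right fun _ => ?_
  show ((bitMat b).map (Int.cast : ℤ → ℚ)).rank + k ≤ n ↔ _
  rw [h b]

theorem corank_bit (ε : ℝ) (hε : 0 < ε) (h : Half.End288.CorOne) : ∀ᶠ n : ℕ in atTop, ∀ k : ℕ,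
    1 ≤ k → prob (0 : Sym2 (Fin n) → ℝ) (Corank bitMat k) ≤
      (2 : ℝ) ^ (-((1 - ε) * n + (1 / 2 - ε) * (k : ℝ) ^ 2)) := by
  filter_upwards [dcor_le h ε hε] with n hn k hk
  rw [prob_corank_bit]
  exact hn k hk

theorem corank_sign_sub (n k : ℕ) :
    Corank (n := n) signMat (k + 1) ⊆ Corank (n := n) bitMat k := by
  intro b hb
  have h6 := rank_bit_le_sign (F := ℚ) (by norm_num) ((bitMat b).map (Int.cast : ℤ → ℚ))
    ((signMat b).map (Int.cast : ℤ → ℚ)) (fun i j => by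
      show (((if b s(i, j) then (-1 : ℤ) else 1) : ℤ) : ℚ) =
        1 - 2 * (((if b s(i, j) then (1 : ℤ) else 0) : ℤ) : ℚ)
      split_ifs
      · push_cast; ring
      · push_cast; ring)
  have hb' : ((signMat b).map (Int.cast : ℤ → ℚ)).rank + (k + 1) ≤ n := hb
  show ((bitMat b).map (Int.cast : ℤ → ℚ)).rank + k ≤ n
  omega

theorem prob_corank_sign_one (n : ℕ) :
    prob (0 : Sym2 (Fin (n + 1)) → ℝ) (Corank signMat 1) = dcor n 1 := by
  classical
  rw [prob_zero]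
  have h1 : (univ.filter fun b : Bits (n + 1) => b ∈ Corank signMat 1) =
      univ.filter fun b : Sym2 (Fin (n + 1)) → Bool => (Half.SgnRed.sgM b).det = 0 := by
    ext b
    rw [mem_filter, mem_filter]
    refine and_congr_right fun _ => ?_
    show ((signMat b).map (Int.cast : ℤ → ℚ)).rank + 1 ≤ n + 1 ↔ (signMat b).det = 0
    have h2 : (signMat b).map (Int.cast : ℤ → ℚ) =
        (Int.castRingHom ℚ).mapMatrix (signMat b) := rfl
    have h3 := Half.End288.rank_lt_iff ((signMat b).map (Int.cast : ℤ → ℚ))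
    rw [Nat.add_one_le_iff, h3, h2, ← RingHom.map_det]
    simp
  rw [h1, Half.SgnRed.prob_sgM]
  unfold dcor
  congr 2
  refine congrArg Finset.card ?_
  ext c
  rw [mem_filter, mem_filter, Half.End288.det_matZ_iff, Nat.add_one_le_iff]

theorem corank_sign (ε : ℝ) (hε : 0 < ε) (h : Half.End288.CorOne) : ∀ᶠ n : ℕ in atTop, ∀ k : ℕ,
    1 ≤ k → prob (0 : Sym2 (Fin n) → ℝ) (Corank signMat k) ≤
      (2 : ℝ) ^ (-((1 - ε) * n + (1 / 2 - ε) * (k : ℝ) ^ 2)) := by
  -- reduction to small `ε`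
  suffices H : ∀ ε : ℝ, 0 < ε → ε ≤ 1 / 4 → ∀ᶠ n : ℕ in atTop, ∀ k : ℕ, 1 ≤ k →
      prob (0 : Sym2 (Fin n) → ℝ) (Corank signMat k) ≤
      (2 : ℝ) ^ (-((1 - ε) * n + (1 / 2 - ε) * (k : ℝ) ^ 2)) by
    filter_upwards [H (min ε (1 / 4)) (lt_min hε (by norm_num)) (min_le_right _ _)] with n hn k hk
    refine (hn k hk).trans (Real.rpow_le_rpow_of_exponent_le (by norm_num) ?_)
    have h1 : min ε (1 / 4) ≤ ε := min_le_left _ _
    have h2 : (0 : ℝ) ≤ n := by positivity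
    have h3 : (0 : ℝ) ≤ (k : ℝ) ^ 2 := by positivity
    nlinarith [mul_le_mul_of_nonneg_right h1 h2, mul_le_mul_of_nonneg_right h1 h3]
  clear hε ε
  intro ε hε hε4
  have hcore := dcor_le h (ε / 2) (by linarith)
  have hcore1 := (tendsto_sub_atTop_nat 1).eventually hcore
  have hbig : ∀ᶠ n : ℕ in atTop, 1 / (2 * ε) ≤ ε / 2 * n ∧ 1 ≤ ε / 2 * n :=
    ((tendsto_natCast_atTop_atTop (R := ℝ)).const_mul_atTop (by linarith : 0 < ε / 2)
      |>.eventually (eventually_ge_atTop (1 / (2 * ε)))).and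
    ((tendsto_natCast_atTop_atTop (R := ℝ)).const_mul_atTop (by linarith : 0 < ε / 2)
      |>.eventually (eventually_ge_atTop 1))
  filter_upwards [hcore, hcore1, hbig, eventually_ge_atTop 1] with n h1 h2 h3 hn1 k hk
  have hn0 : (0 : ℝ) ≤ n := by positivity
  rcases Nat.lt_or_ge k 2 with hk2 | hk2
  · obtain rfl : k = 1 := by omega
    obtain ⟨m, rfl⟩ : ∃ m, n = m + 1 := ⟨n - 1, by omega⟩
    rw [prob_corank_sign_one]
    have h4 := h2 1 le_rfl
    rw [Nat.add_sub_cancel] at h4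
    refine h4.trans (Real.rpow_le_rpow_of_exponent_le (by norm_num) ?_)
    have h5 := h3.2
    push_cast at h5 ⊢
    nlinarith
  · obtain ⟨j, rfl⟩ : ∃ j, k = j + 1 := ⟨k - 1, by omega⟩
    have hz : ∀ e : Sym2 (Fin n), |(0 : Sym2 (Fin n) → ℝ) e| ≤ 1 := fun e => by simp
    refine (prob_mono hz (corank_sign_sub n j)).trans ?_
    rw [prob_corank_bit]
    refine (h1 j (by omega)).trans (Real.rpow_le_rpow_of_exponent_le (by norm_num) ?_)
    have hj0 : (0 : ℝ) ≤ j := by positivity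
    have h5 : ((j : ℝ) + 1) ≤ ε / 2 * ((j : ℝ) + 1) ^ 2 + 1 / (2 * ε) := by
      have h4 : 1 / (2 * ε) - ((j : ℝ) + 1) + ε / 2 * ((j : ℝ) + 1) ^ 2 =
          (1 - ε * ((j : ℝ) + 1)) ^ 2 / (2 * ε) := by
        field_simp
        ring
      have h6 : 0 ≤ (1 - ε * ((j : ℝ) + 1)) ^ 2 / (2 * ε) := by positivity
      linarith
    have h7 := h3.1
    push_cast
    nlinarith

end Vale.Agent.P160.H462
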