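import Vale.Agent.P160.H462.SmallBoth
import Vale.Agent.P160.H462.Rank293

/-! # P160 / H462: rank deficiency of all large principal submatrices -/

open Finset Filter Topology

namespace Vale.Agent.P160.H462

variable {n : ℕ}

/-- the law of the bits on a principal submatrix -/
theorem prob_restrict (T : Finset (Fin n)) (P : Set (Bits T.card)) :
    prob (0 : Sym2 (Fin n) → ℝ) {b | (b ∘ Sym2.map (T.orderEmbOfFin rfl) : Bits T.card) ∈ P} =
      prob (0 : Sym2 (Fin T.card) → ℝ) P := by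
  classical
  have hinj : Function.Injective (Sym2.map (T.orderEmbOfFin rfl : Fin T.card → Fin n)) :=
    Sym2.map.injective (T.orderEmbOfFin rfl).injective
  have h5 := Half.Cor1.card_comp (Sym2.map (T.orderEmbOfFin rfl : Fin T.card → Fin n)) hinj
    (fun b : Bits T.card => b ∈ P)
  rw [prob_zero, prob_zero, div_eq_div_iff (by positivity) (by positivity)]
  exact_mod_cast h5

/-- the rank of a principal submatrix -/
theorem rank_prin (M : ∀ n, Bits n → Matrix (Fin n) (Fin n) ℤ) (hM : Nat' M) (T : Finset (Fin n))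
    (b : Bits n) : ((prin (M n b) T).map (Int.cast : ℤ → ℚ)).rank =
      ((M T.card (b ∘ Sym2.map (T.orderEmbOfFin rfl))).map (Int.cast : ℤ → ℚ)).rank := by
  have h2 : ((prin (M n b) T).map (Int.cast : ℤ → ℚ)).submatrix (T.orderIsoOfFin rfl).toEquiv
      (T.orderIsoOfFin rfl).toEquiv =
      (M T.card (b ∘ Sym2.map (T.orderEmbOfFin rfl))).map (Int.cast : ℤ → ℚ) := by
    have h3 := hM T.card n (T.orderEmbOfFin rfl) b
    rw [← (show (fun z => b (Sym2.map (T.orderEmbOfFin rfl) z)) = b ∘ Sym2.map (T.orderEmbOfFin rfl)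
      from rfl), ← h3]
    ext i j
    rfl
  rw [← h2, Matrix.rank_submatrix]

/-- some principal submatrix of order at least `(1 - β) n` has corank at least `k` -/
theorem deficient_le (M : ∀ n, Bits n → Matrix (Fin n) (Fin n) ℤ) (hM : Nat' M)
    (hK : ∀ ε : ℝ, 0 < ε → ∀ᶠ n : ℕ in atTop, ∀ k : ℕ, 1 ≤ k →
      prob (0 : Sym2 (Fin n) → ℝ) (Corank (M n) k) ≤
        (2 : ℝ) ^ (-((1 - ε) * n + (1 / 2 - ε) * (k : ℝ) ^ 2)))
    (β : ℝ) (h0 : 0 ≤ β) (h1 : β ≤ 1 / 2) (ε : ℝ) (hε : 0 < ε) :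
    ∀ᶠ n : ℕ in atTop, ∀ k : ℕ, 1 ≤ k → prob (0 : Sym2 (Fin n) → ℝ) (Deficient (M n) β k) ≤
      (2 : ℝ) ^ (-((1 - β - Real.binEntropy β / Real.log 2 - ε) * n + (1 / 2 - ε) * (k : ℝ) ^ 2)) := by
  classical
  have hl := log2_pos
  set e : ℝ := min ε 1 with he
  have he0 : 0 < e := lt_min hε one_pos
  have heε : e ≤ ε := min_le_left _ _
  have hel : e ≤ 1 := min_le_right _ _
  obtain ⟨m₀, hm₀⟩ := eventually_atTop.1 (hK e he0)
  filter_upwards [tendsto_cast_atTop (1 / 2) (by norm_num) m₀] with n hn k hk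
  have hn0 : (0 : ℝ) ≤ n := Nat.cast_nonneg n
  set S := univ.filter fun T : Finset (Fin n) => (1 - β) * n ≤ (T.card : ℝ) with hSdef
  have hset : Deficient (M n) β k = {b | ∃ T ∈ S, b ∈ {b : Bits n |
      (b ∘ Sym2.map (T.orderEmbOfFin rfl) : Bits T.card) ∈ Corank (M T.card) k}} := by
    ext b
    constructor
    · rintro ⟨T, h2, h3⟩
      refine ⟨T, mem_filter.2 ⟨mem_univ _, h2⟩, ?_⟩
      rw [rank_prin M hM] at h3
      exact h3
    · rintro ⟨T, h2, h3⟩
      refine ⟨T, (mem_filter.1 h2).2, ?_⟩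
      rw [rank_prin M hM]
      exact h3
  have hT : ∀ T ∈ S, prob (0 : Sym2 (Fin n) → ℝ) {b : Bits n |
      (b ∘ Sym2.map (T.orderEmbOfFin rfl) : Bits T.card) ∈ Corank (M T.card) k} ≤
      (2 : ℝ) ^ (-((1 - e) * ((1 - β) * n) + (1 / 2 - e) * (k : ℝ) ^ 2)) := by
    intro T hT
    have h2 := (mem_filter.1 hT).2
    have h3 : m₀ ≤ T.card := by
      have : (m₀ : ℝ) ≤ T.card := by nlinarith
      exact_mod_cast this
    rw [prob_restrict]
    refine (hm₀ _ h3 k hk).trans (Real.rpow_le_rpow_of_exponent_le (by norm_num) ?_)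
    have : (1 - e) * ((1 - β) * n) ≤ (1 - e) * T.card := mul_le_mul_of_nonneg_left h2 (by linarith)
    linarith
  have hcard : (S.card : ℝ) ≤ Real.exp (n * Real.binEntropy β) := by
    rcases h0.eq_or_lt with hb | hb
    · rw [← hb, Real.binEntropy_zero, mul_zero, Real.exp_zero]
      have h4 : S ⊆ {univ} := by
        intro T hT
        have h2 := (mem_filter.1 hT).2
        rw [← hb, sub_zero, one_mul] at h2
        have h3 : n ≤ T.card := by exact_mod_cast h2
        rw [mem_singleton, ← Finset.card_eq_iff_eq_univ, Fintype.card_fin]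
        have h5 := card_le_univ T
        rw [Fintype.card_fin] at h5
        omega
      have h5 := card_le_card h4
      rw [card_singleton] at h5
      exact_mod_cast h5
    · exact card_large_entropy n β hb h1
  have hcard2 : (S.card : ℝ) ≤ (2 : ℝ) ^ (Real.binEntropy β / Real.log 2 * n) := by
    refine hcard.trans (le_of_eq ?_)
    rw [Real.rpow_def_of_pos (by norm_num)]
    congr 1
    field_simp
  rw [hset]
  refine (prob_biUnion_le S _ _ hT).trans ?_
  calc (S.card : ℝ) * (2 : ℝ) ^ (-((1 - e) * ((1 - β) * n) + (1 / 2 - e) * (k : ℝ) ^ 2))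
      ≤ (2 : ℝ) ^ (Real.binEntropy β / Real.log 2 * n) *
        (2 : ℝ) ^ (-((1 - e) * ((1 - β) * n) + (1 / 2 - e) * (k : ℝ) ^ 2)) :=
        mul_le_mul_of_nonneg_right hcard2 (by positivity)
    _ = (2 : ℝ) ^ (Real.binEntropy β / Real.log 2 * n +
        -((1 - e) * ((1 - β) * n) + (1 / 2 - e) * (k : ℝ) ^ 2)) := (Real.rpow_add (by norm_num) _ _).symm
    _ ≤ _ := by
        refine Real.rpow_le_rpow_of_exponent_le (by norm_num) ?_
        have h5 : e * ((1 - β) * n) ≤ ε * n := by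
          have h6 : (1 - β) * n ≤ n := by nlinarith
          have h7 : 0 ≤ (1 - β) * n := by nlinarith
          calc e * ((1 - β) * n) ≤ ε * ((1 - β) * n) := mul_le_mul_of_nonneg_right heε h7
            _ ≤ ε * n := mul_le_mul_of_nonneg_left h6 hε.le
        have h8 : e * (k : ℝ) ^ 2 ≤ ε * (k : ℝ) ^ 2 := mul_le_mul_of_nonneg_right heε (sq_nonneg _)
        nlinarith

end Vale.Agent.P160.H462
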