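import Mathlib

/-! # P160: robust and universal form of the rate `1/2` (helper462), definitions -/

open Finset

namespace Vale.Agent.P160.H462

/-- The set of all symmetric `n × n` integer matrices with every entry equal to `1` or `-1`. -/
def SymmetricSignMatrices (n : ℕ) : Set (Matrix (Fin n) (Fin n) ℤ) :=
  {A | A.IsSymm ∧ ∀ i j, A i j = 1 ∨ A i j = -1}

/-- The probability that a uniformly random symmetric sign matrix of size `n` is singular. -/
noncomputable def q (n : ℕ) : ℝ :=
  (Set.ncard {A : Matrix (Fin n) (Fin n) ℤ | A ∈ SymmetricSignMatrices n ∧ A.det = 0} : ℝ) /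
    (Set.ncard (SymmetricSignMatrices n) : ℝ)

/-- A symmetric array of bits: one bit for every unordered pair `{i, j}`, `i, j < n`, `i = j` allowed. -/
abbrev Bits (n : ℕ) : Type := Sym2 (Fin n) → Bool

/-- The symmetric sign matrix with entries `(-1) ^ b`. -/
def signMat {n : ℕ} (b : Bits n) : Matrix (Fin n) (Fin n) ℤ := fun i j => if b s(i, j) then -1 else 1

/-- The symmetric 0/1 matrix with entries `b`. -/
def bitMat {n : ℕ} (b : Bits n) : Matrix (Fin n) (Fin n) ℤ := fun i j => if b s(i, j) then 1 else 0

/-- The probability of `E` when the bits are independent and `(-1) ^ b` has expectation `δ`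
(`δ = 0`: fair bits). -/
noncomputable def prob {n : ℕ} (δ : Sym2 (Fin n) → ℝ) (E : Set (Bits n)) : ℝ := by
  classical exact ∑ b : Bits n, if b ∈ E then ∏ e, (1 + δ e * (if b e then -1 else 1)) / 2 else 0

/-- The principal submatrix on `T`. -/
def prin {n : ℕ} {R : Type} (A : Matrix (Fin n) (Fin n) R) (T : Finset (Fin n)) : Matrix T T R :=
  A.submatrix (fun i => (i : Fin n)) (fun i => (i : Fin n))

/-- Flipping at most `k` of the entries of `M b` on or above the diagonal (with the symmetric entries)
to the other value and deleting at most `l` rows with the same columns can give a singular matrix. -/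
def Fragile {n : ℕ} (M : Bits n → Matrix (Fin n) (Fin n) ℤ) (k l : ℕ) : Set (Bits n) :=
  {b | ∃ b' : Bits n, (univ.filter fun e => b e ≠ b' e).card ≤ k ∧
    ∃ T : Finset (Fin n), n ≤ T.card + l ∧ (prin (M b') T).det = 0}

/-- Some principal submatrix, of any order `m`, has rank less than `m - 6 √n` modulo some prime that
does not divide `d`. -/
def LowRank {n : ℕ} (M : Bits n → Matrix (Fin n) (Fin n) ℤ) (d : ℕ) : Set (Bits n) :=
  {b | ∃ (T : Finset (Fin n)) (p : ℕ) (_ : Fact p.Prime), ¬ p ∣ d ∧
    (((prin (M b) T).map (Int.cast : ℤ → ZMod p)).rank : ℝ) < T.card - 6 * √(n : ℝ)}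

/-- Some principal submatrix of order at least `(1 - β) n` has corank at least `k` over `ℚ`. -/
def Deficient {n : ℕ} (M : Bits n → Matrix (Fin n) (Fin n) ℤ) (β : ℝ) (k : ℕ) : Set (Bits n) :=
  {b | ∃ T : Finset (Fin n), (1 - β) * n ≤ T.card ∧
    ((prin (M b) T).map (Int.cast : ℤ → ℚ)).rank + k ≤ T.card}

end Vale.Agent.P160.H462
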