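import Vale.Agent.P160.H462.Defs

/-! # P160 / H462: auxiliary events (not used in the final statement) -/

open Finset

namespace Vale.Agent.P160.H462

/-- Some principal submatrix of order at least `(1 - β) n` is singular. -/
def BadMinor {n : ℕ} (M : Bits n → Matrix (Fin n) (Fin n) ℤ) (β : ℝ) : Set (Bits n) :=
  {b | ∃ T : Finset (Fin n), (1 - β) * n ≤ T.card ∧ (prin (M b) T).det = 0}

/-- The rank over `ℚ` is at most `n - k`. -/
def Corank {n : ℕ} (M : Bits n → Matrix (Fin n) (Fin n) ℤ) (k : ℕ) : Set (Bits n) :=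
  {b | ((M b).map (Int.cast : ℤ → ℚ)).rank + k ≤ n}

end Vale.Agent.P160.H462
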