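import Vale.Agent.P160.H462.Asym

/-! # P160 / H462: the lower bound for biased bits -/

open Finset Filter Topology

namespace Vale.Agent.P160.H462

variable {n : ℕ}

/-! ## events that depend on few coordinates -/

/-- If `δ = δ'` on the coordinates `p` and `E` depends only on these coordinates, the probabilities
agree. -/
theorem prob_marginal (p : Sym2 (Fin n) → Prop) (δ δ' : Sym2 (Fin n) → ℝ)
    (h : ∀ e, p e → δ e = δ' e) (E : Set (Bits n))
    (hE : ∀ b b' : Bits n, (∀ e, p e → b e = b' e) → (b ∈ E ↔ b' ∈ E)) :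
    prob δ E = prob δ' E := by
  classical
  have key : ∀ δ : Sym2 (Fin n) → ℝ, prob δ E =
      ∑ x : {e // p e} → Bool, if (Equiv.piEquivPiSubtypeProd p fun _ => Bool).symm (x, fun _ => false) ∈ E
        then ∏ e : {e // p e}, (1 + δ e * sg (x e)) / 2 else 0 := by
    intro δ
    have h1 : prob δ E = ∑ b : Bits n, if b ∈ E then ∏ e, (1 + δ e * sg (b e)) / 2 else 0 := by
      unfold prob sg
      rfl
    rw [h1, ← Equiv.sum_comp (Equiv.piEquivPiSubtypeProd p fun _ => Bool).symm, Fintype.sum_prod_type]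
    refine sum_congr rfl fun x _ => ?_
    have h2 : ∀ y : {e // ¬ p e} → Bool,
        (if (Equiv.piEquivPiSubtypeProd p fun _ => Bool).symm (x, y) ∈ E then
          ∏ e, (1 + δ e * sg ((Equiv.piEquivPiSubtypeProd p fun _ => Bool).symm (x, y) e)) / 2 else 0) =
        (if (Equiv.piEquivPiSubtypeProd p fun _ => Bool).symm (x, fun _ => false) ∈ E then
          ∏ e : {e // p e}, (1 + δ e * sg (x e)) / 2 else 0) *
          ∏ e : {e // ¬ p e}, (1 + δ e * sg (y e)) / 2 := by
      intro y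
      have h3 : (Equiv.piEquivPiSubtypeProd p fun _ => Bool).symm (x, y) ∈ E ↔
          (Equiv.piEquivPiSubtypeProd p fun _ => Bool).symm (x, fun _ => false) ∈ E := by
        refine hE _ _ fun e he => ?_
        simp [Equiv.piEquivPiSubtypeProd, he]
      have h4 : ∏ e, (1 + δ e * sg ((Equiv.piEquivPiSubtypeProd p fun _ => Bool).symm (x, y) e)) / 2 =
          (∏ e : {e // p e}, (1 + δ e * sg (x e)) / 2) * ∏ e : {e // ¬ p e}, (1 + δ e * sg (y e)) / 2 := by
        rw [← Fintype.prod_subtype_mul_prod_subtype p]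
        congr 1
        · refine prod_congr rfl fun e _ => ?_
          simp [Equiv.piEquivPiSubtypeProd, e.2]
        · refine prod_congr rfl fun e _ => ?_
          simp [Equiv.piEquivPiSubtypeProd, e.2]
      by_cases h5 : (Equiv.piEquivPiSubtypeProd p fun _ => Bool).symm (x, fun _ => false) ∈ E
      · rw [if_pos h5, if_pos (h3.2 h5), h4]
      · rw [if_neg h5, if_neg fun h6 => h5 (h3.1 h6), zero_mul]
    rw [sum_congr rfl fun y _ => h2 y, ← mul_sum]
    have h5 : ∑ y : {e // ¬ p e} → Bool, ∏ e : {e // ¬ p e}, (1 + δ e * sg (y e)) / 2 = 1 := by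
      have h6 := (Finset.prod_univ_sum (t := fun _ : {e // ¬ p e} => (univ : Finset Bool))
        (f := fun e x => (1 + δ e * sg x) / 2)).symm
      rw [Fintype.piFinset_univ] at h6
      rw [h6]
      refine prod_eq_one fun e _ => ?_
      rw [Fintype.sum_bool]
      simp only [sg]
      simp
      ring
    rw [h5, mul_one]
  rw [key, key]
  refine sum_congr rfl fun x _ => ?_
  congr 1
  exact prod_congr rfl fun e _ => by rw [h e e.2]

/-! ## change of measure, the other direction -/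

theorem inv_one_add_le (x : ℝ) (hx : |x| ≤ 1 / 2) : (1 + x)⁻¹ ≤ Real.exp (-x + 2 * x ^ 2) := by
  have h := abs_le.1 hx
  have h1 : 0 < 1 + x := by linarith [h.1]
  have h2 : 0 < 1 - x := by linarith [h.2]
  have hx2 : x ^ 2 ≤ 1 / 4 := by nlinarith [h.1, h.2]
  have e1 : (1 + x)⁻¹ = (1 - x) * (1 - x ^ 2)⁻¹ := by
    have : (1 - x ^ 2 : ℝ) = (1 + x) * (1 - x) := by ring
    rw [this]
    field_simp
  have e2 : (1 - x ^ 2)⁻¹ ≤ Real.exp (2 * x ^ 2) := by
    have h3 : (1 - x ^ 2)⁻¹ ≤ 1 + 2 * x ^ 2 := by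
      rw [inv_le_iff_one_le_mul₀ (by linarith)]
      nlinarith [sq_nonneg x]
    exact h3.trans (by linarith [Real.add_one_le_exp (2 * x ^ 2)])
  have e3 : 1 - x ≤ Real.exp (-x) := by linarith [Real.add_one_le_exp (-x)]
  rw [e1, Real.exp_add]
  exact mul_le_mul e3 e2 (inv_nonneg.2 (by linarith)) (Real.exp_pos _).le

theorem inv_pow_bound (x : ℝ) (hx : |x| ≤ 1 / 2) (r : ℕ) :
    (((1 + x)⁻¹) ^ r + ((1 - x)⁻¹) ^ r) / 2 ≤ Real.exp ((2 * r + (r : ℝ) ^ 2 / 2) * x ^ 2) := by
  have h := abs_le.1 hx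
  have h1 : 0 < 1 + x := by linarith [h.1]
  have h2 : 0 < 1 - x := by linarith [h.2]
  have e1 : ((1 + x)⁻¹) ^ r ≤ Real.exp (-(r * x)) * Real.exp (2 * r * x ^ 2) := by
    calc ((1 + x)⁻¹) ^ r ≤ (Real.exp (-x + 2 * x ^ 2)) ^ r :=
          pow_le_pow_left₀ (inv_nonneg.2 h1.le) (inv_one_add_le x hx) r
      _ = _ := by rw [← Real.exp_nat_mul, ← Real.exp_add]; congr 1; ring
  have e2 : ((1 - x)⁻¹) ^ r ≤ Real.exp (r * x) * Real.exp (2 * r * x ^ 2) := by
    have h3 := inv_one_add_le (-x) (by rwa [abs_neg])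
    rw [← sub_eq_add_neg] at h3
    calc ((1 - x)⁻¹) ^ r ≤ (Real.exp (- -x + 2 * (-x) ^ 2)) ^ r :=
          pow_le_pow_left₀ (inv_nonneg.2 h2.le) h3 r
      _ = _ := by rw [← Real.exp_nat_mul, ← Real.exp_add]; congr 1; ring
  have h3 := Real.cosh_le_exp_half_sq (r * x)
  rw [Real.cosh_eq] at h3
  calc (((1 + x)⁻¹) ^ r + ((1 - x)⁻¹) ^ r) / 2
      ≤ (Real.exp (r * x) + Real.exp (-(r * x))) / 2 * Real.exp (2 * r * x ^ 2) := by
        rw [div_mul_eq_mul_div]
        refine div_le_div_of_nonneg_right ?_ (by norm_num)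
        linarith
    _ ≤ Real.exp ((r * x) ^ 2 / 2) * Real.exp (2 * r * x ^ 2) :=
        mul_le_mul_of_nonneg_right h3 (Real.exp_pos _).le
    _ = _ := by rw [← Real.exp_add]; congr 1; ring

theorem prob_zero_le_of_biased {δ : Sym2 (Fin n) → ℝ} (hδ : ∀ e, |δ e| ≤ 1 / 2) (E : Set (Bits n))
    (t : ℝ) (ht : 0 < t) (r : ℕ) :
    prob 0 E ≤ t * prob δ E + Real.exp ((2 * r + (r : ℝ) ^ 2 / 2) * ∑ e, δ e ^ 2) / t ^ r := by
  classical
  have hz : ∀ e : Sym2 (Fin n), |(0 : Sym2 (Fin n) → ℝ) e| ≤ 1 := fun e => by simp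
  have hpos : ∀ b : Bits n, 0 < dens δ b := by
    intro b
    refine prod_pos fun e _ => ?_
    have h := abs_le.1 (hδ e)
    unfold sg
    split_ifs <;> linarith [h.1, h.2]
  rw [prob_eq, prob_eq]
  have key : ∀ b : Bits n, wt (0 : Sym2 (Fin n) → ℝ) b ≤ t * wt δ b +
      (dens δ b)⁻¹ ^ r * wt (0 : Sym2 (Fin n) → ℝ) b / t ^ r := by
    intro b
    have hw := wt_nonneg hz b
    have hd := hpos b
    rw [wt_eq δ b]
    by_cases hcase : (dens δ b)⁻¹ ≤ t
    · have h1 : 1 ≤ t * dens δ b := by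
        rwa [inv_le_iff_one_le_mul₀ hd] at hcase
      have h2 : 0 ≤ (dens δ b)⁻¹ ^ r * wt (0 : Sym2 (Fin n) → ℝ) b / t ^ r := by positivity
      nlinarith [mul_le_mul_of_nonneg_right h1 hw]
    · push Not at hcase
      have h1 : t ^ r ≤ (dens δ b)⁻¹ ^ r := pow_le_pow_left₀ ht.le hcase.le r
      have h2 : 1 ≤ (dens δ b)⁻¹ ^ r / t ^ r := by
        rw [le_div_iff₀ (by positivity), one_mul]; exact h1
      have h3 := mul_le_mul_of_nonneg_right h2 hw
      have h4 : 0 ≤ t * (dens δ b * wt (0 : Sym2 (Fin n) → ℝ) b) := by positivity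
      calc wt (0 : Sym2 (Fin n) → ℝ) b = 1 * wt (0 : Sym2 (Fin n) → ℝ) b := (one_mul _).symm
        _ ≤ (dens δ b)⁻¹ ^ r / t ^ r * wt (0 : Sym2 (Fin n) → ℝ) b := h3
        _ = (dens δ b)⁻¹ ^ r * wt (0 : Sym2 (Fin n) → ℝ) b / t ^ r := by ring
        _ ≤ _ := by linarith
  have hmom : ∑ b : Bits n, (dens δ b)⁻¹ ^ r * wt (0 : Sym2 (Fin n) → ℝ) b ≤
      Real.exp ((2 * r + (r : ℝ) ^ 2 / 2) * ∑ e, δ e ^ 2) := by
    have h1 : ∀ b : Bits n, (dens δ b)⁻¹ ^ r * wt (0 : Sym2 (Fin n) → ℝ) b =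
        ∏ e, (fun e x => ((1 + δ e * sg x)⁻¹) ^ r / 2) e (b e) := by
      intro b
      unfold dens wt
      rw [← prod_inv_distrib, ← prod_pow, ← prod_mul_distrib]
      refine prod_congr rfl fun e _ => ?_
      simp
      ring
    rw [sum_congr rfl fun b _ => h1 b, sum_prod (fun e x => ((1 + δ e * sg x)⁻¹) ^ r / 2)]
    rw [mul_sum, Real.exp_sum]
    refine prod_le_prod (fun e _ => ?_) fun e _ => ?_
    · have h := abs_le.1 (hδ e)
      have h3 : 0 ≤ 1 + δ e * sg false := by simp only [sg]; simp; linarith [h.1]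
      have h4 : 0 ≤ 1 + δ e * sg true := by simp only [sg]; simp; linarith [h.2]
      positivity
    · refine le_trans (le_of_eq ?_) (inv_pow_bound (δ e) (hδ e) r)
      simp only [sg]
      simp
      ring
  calc ∑ b ∈ univ.filter (· ∈ E), wt (0 : Sym2 (Fin n) → ℝ) b
      ≤ ∑ b ∈ univ.filter (· ∈ E), (t * wt δ b +
        (dens δ b)⁻¹ ^ r * wt (0 : Sym2 (Fin n) → ℝ) b / t ^ r) := sum_le_sum fun b _ => key b
    _ = t * ∑ b ∈ univ.filter (· ∈ E), wt δ b +
        (∑ b ∈ univ.filter (· ∈ E), (dens δ b)⁻¹ ^ r * wt (0 : Sym2 (Fin n) → ℝ) b) / t ^ r := by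
        rw [sum_add_distrib, mul_sum, sum_div]
    _ ≤ _ := by
        refine add_le_add le_rfl (div_le_div_of_nonneg_right ?_ (by positivity))
        refine le_trans (sum_le_sum_of_subset_of_nonneg (filter_subset _ _) fun b _ _ => ?_) hmom
        have hw := wt_nonneg hz b
        have hd := (hpos b).le
        positivity

/-! ## two equal rows -/

/-- rows `i` and `j` are equal -/
def EqRows (i j : Fin n) : Set (Bits n) := {b | ∀ k, b s(i, k) = b s(j, k)}

theorem det_of_eqRows_sign {i j : Fin n} (hij : i ≠ j) {b : Bits n} (h : b ∈ EqRows i j) :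
    (signMat b).det = 0 := by
  refine Matrix.det_zero_of_row_eq hij ?_
  funext k
  show (if b s(i, k) then (-1 : ℤ) else 1) = if b s(j, k) then (-1 : ℤ) else 1
  rw [h k]

theorem det_of_eqRows_bit {i j : Fin n} (hij : i ≠ j) {b : Bits n} (h : b ∈ EqRows i j) :
    (bitMat b).det = 0 := by
  refine Matrix.det_zero_of_row_eq hij ?_
  funext k
  show (if b s(i, k) then (1 : ℤ) else 0) = if b s(j, k) then (1 : ℤ) else 0
  rw [h k]

theorem prob_eqRows (i j : Fin n) (hij : i ≠ j) :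
    (1 / 2 : ℝ) ^ n ≤ prob (0 : Sym2 (Fin n) → ℝ) (EqRows i j) := by
  classical
  set φ : Fin n → Fin n := fun k => if k = j then i else k with hφ
  have hinj : Function.Injective (fun b : Bits n => ((fun e => b (e.map φ) : Bits n), fun k => b s(j, k))) := by
    intro b b' h
    have h1 := congrArg Prod.fst h
    have h2 := congrArg Prod.snd h
    funext e
    induction e using Sym2.ind with
    | _ a c =>
      by_cases ha : a = j
      · subst ha
        exact congrFun h2 c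
      · by_cases hc : c = j
        · subst hc
          rw [Sym2.eq_swap]
          exact congrFun h2 a
        · have h3 := congrFun h1 s(a, c)
          simp only [Sym2.map_mk] at h3
          simpa [hφ, ha, hc] using h3
  have hmem : ∀ b : Bits n, (fun e => b (e.map φ) : Bits n) ∈ EqRows i j := by
    intro b k
    show b (Sym2.map φ s(i, k)) = b (Sym2.map φ s(j, k))
    rw [Sym2.map_mk, Sym2.map_mk]
    simp [hφ]
  have hcard : 2 ^ Fintype.card (Sym2 (Fin n)) ≤
      (univ.filter fun b : Bits n => b ∈ EqRows i j).card * 2 ^ n := by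
    have h1 : (univ : Finset (Bits n)).card ≤
        ((univ.filter fun b : Bits n => b ∈ EqRows i j) ×ˢ (univ : Finset (Fin n → Bool))).card :=
      card_le_card_of_injOn _ (fun b _ => mem_coe.2 (mem_product.2
        ⟨mem_filter.2 ⟨mem_univ _, hmem b⟩, mem_univ _⟩)) hinj.injOn
    rw [card_univ, card_product, card_univ, Fintype.card_fun, Fintype.card_fun, Fintype.card_bool,
      Fintype.card_fin] at h1
    exact h1
  rw [prob_zero, le_div_iff₀ (by positivity), one_div, inv_pow]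
  have h2 : (2 : ℝ) ^ Fintype.card (Sym2 (Fin n)) ≤
      ((univ.filter fun b : Bits n => b ∈ EqRows i j).card : ℝ) * 2 ^ n := by exact_mod_cast hcard
  rw [inv_mul_le_iff₀ (by positivity), mul_comm]
  exact h2

/-! ## rows of small mass -/

theorem sum_rows_le (f : Sym2 (Fin n) → ℝ) (hf : ∀ e, 0 ≤ f e) :
    ∑ i : Fin n, ∑ j : Fin n, f s(i, j) ≤ 2 * ∑ e, f e := by
  classical
  have h1 : ∑ i : Fin n, ∑ j : Fin n, f s(i, j) = ∑ x : Fin n × Fin n, f s(x.1, x.2) := by
    rw [Fintype.sum_prod_type]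
  have h2 : ∑ x : Fin n × Fin n, f s(x.1, x.2) =
      ∑ e : Sym2 (Fin n), ∑ x ∈ univ.filter fun x : Fin n × Fin n => s(x.1, x.2) = e, f s(x.1, x.2) :=
    (sum_fiberwise univ (fun x : Fin n × Fin n => s(x.1, x.2)) _).symm
  rw [h1, h2, mul_sum]
  refine sum_le_sum fun e _ => ?_
  have h3 : ∑ x ∈ univ.filter fun x : Fin n × Fin n => s(x.1, x.2) = e, f s(x.1, x.2) =
      (univ.filter fun x : Fin n × Fin n => s(x.1, x.2) = e).card * f e := by
    rw [← nsmul_eq_mul, ← sum_const]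
    exact sum_congr rfl fun x hx => by rw [(mem_filter.1 hx).2]
  rw [h3]
  refine mul_le_mul_of_nonneg_right ?_ (hf e)
  have h4 : (univ.filter fun x : Fin n × Fin n => s(x.1, x.2) = e).card ≤ 2 := by
    induction e using Sym2.ind with
    | _ a c =>
      have h5 : (univ.filter fun x : Fin n × Fin n => s(x.1, x.2) = s(a, c)) ⊆ {(a, c), (c, a)} := by
        intro x hx
        have h6 := (mem_filter.1 hx).2
        have h7 : s(x.1, x.2) = s(a, c) := h6
        rw [Sym2.eq_iff] at h7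
        rw [mem_insert, mem_singleton]
        rcases h7 with h8 | h8
        · left; exact Prod.ext h8.1 h8.2
        · right; exact Prod.ext h8.1 h8.2
      exact (card_le_card h5).trans card_le_two
  exact_mod_cast h4

theorem exists_light (δ : Sym2 (Fin n) → ℝ) (h : 8 * ∑ e, δ e ^ 2 < n - 1) :
    ∃ i j : Fin n, i ≠ j ∧ ∑ k, δ s(i, k) ^ 2 ≤ 1 / 4 ∧ ∑ k, δ s(j, k) ^ 2 ≤ 1 / 4 := by
  classical
  by_contra hcon
  push Not at hcon
  set R : Fin n → ℝ := fun i => ∑ k, δ s(i, k) ^ 2 with hR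
  have hR0 : ∀ i, 0 ≤ R i := fun i => sum_nonneg fun k _ => sq_nonneg _
  have h1 : (univ.filter fun i : Fin n => R i ≤ 1 / 4).card ≤ 1 := by
    rw [card_le_one]
    intro a ha c hc
    by_contra hne
    have := hcon a c hne (mem_filter.1 ha).2
    exact absurd (mem_filter.1 hc).2 (not_le.2 this)
  have h2 := card_filter_add_card_filter_not (s := (univ : Finset (Fin n))) (fun i => R i ≤ 1 / 4)
  rw [card_univ, Fintype.card_fin] at h2
  have h3 : (n : ℝ) - 1 ≤ (univ.filter fun i : Fin n => ¬ R i ≤ 1 / 4).card := by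
    have : n ≤ 1 + (univ.filter fun i : Fin n => ¬ R i ≤ 1 / 4).card := by omega
    have h4 : (n : ℝ) ≤ 1 + (univ.filter fun i : Fin n => ¬ R i ≤ 1 / 4).card := by exact_mod_cast this
    linarith
  have h4 : ((univ.filter fun i : Fin n => ¬ R i ≤ 1 / 4).card : ℝ) * (1 / 4) ≤ ∑ i, R i := by
    rw [← nsmul_eq_mul, ← sum_const]
    refine le_trans (sum_le_sum fun i hi => (not_le.1 (mem_filter.1 hi).2).le) ?_
    exact sum_le_sum_of_subset_of_nonneg (filter_subset _ _) fun i _ _ => hR0 i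
  have h5 := sum_rows_le (fun e => δ e ^ 2) fun e => sq_nonneg _
  have h6 : ∑ i, R i ≤ 2 * ∑ e, δ e ^ 2 := h5
  linarith

/-- **lower bound**: two given light rows are equal with probability at least `(1/2 - o(1)) ^ n` -/
theorem lower_biased (M : ∀ n, Bits n → Matrix (Fin n) (Fin n) ℤ)
    (hM : ∀ n (i j : Fin n), i ≠ j → ∀ b ∈ EqRows i j, (M n b).det = 0)
    (δ : ∀ n, Sym2 (Fin n) → ℝ) (hδ : ∀ n e, |δ n e| ≤ 1)
    (hsum : Tendsto (fun n : ℕ => (∑ e, δ n e ^ 2) / n) atTop (𝓝 0)) (ε : ℝ) (hε : 0 < ε) :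
    ∀ᶠ n : ℕ in atTop, Real.exp (-((Real.log 2 + ε) * n)) ≤ prob (δ n) {b | (M n b).det = 0} := by
  classical
  have hl := log2_pos
  obtain ⟨r, hr⟩ := exists_nat_ge (4 * Real.log 2 / ε)
  have hr' : 2 * Real.log 2 ≤ r * (ε / 2) := by
    rw [div_le_iff₀ hε] at hr
    linarith
  set K : ℝ := (2 * r + (r : ℝ) ^ 2 / 2) / 2 with hK
  filter_upwards [hsum.eventually (gt_mem_nhds (show (0 : ℝ) < 1 / 16 by norm_num)),
    tendsto_cast_atTop (Real.log 2) hl (K + Real.log 2), tendsto_cast_atTop (ε / 2) (by positivity) (Real.log 2),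
    eventually_ge_atTop 4] with n h1 h2 h3 hn4
  have hn : (4 : ℝ) ≤ n := by exact_mod_cast hn4
  have hn0 : (0 : ℝ) < n := by linarith
  rw [div_lt_iff₀ hn0] at h1
  obtain ⟨i, j, hij, hi, hj⟩ := exists_light (δ n) (by linarith)
  -- restrict the bias to the two rows
  set p : Sym2 (Fin n) → Prop := fun e => i ∈ e ∨ j ∈ e with hp
  set δ' : Sym2 (Fin n) → ℝ := fun e => if p e then δ n e else 0 with hδ'
  have hsq : ∑ e, δ' e ^ 2 ≤ 1 / 2 := by
    have h5 : ∀ a : Fin n, ∑ e ∈ univ.filter (fun e : Sym2 (Fin n) => a ∈ e), δ n e ^ 2 ≤ ∑ k, δ n s(a, k) ^ 2 := by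
      intro a
      have h6 : (univ.filter (fun e : Sym2 (Fin n) => a ∈ e)) ⊆ univ.image fun k => s(a, k) := by
        intro e he
        obtain ⟨c, hc⟩ := (mem_filter.1 he).2
        exact mem_image.2 ⟨c, mem_univ _, hc.symm⟩
      calc ∑ e ∈ univ.filter (fun e : Sym2 (Fin n) => a ∈ e), δ n e ^ 2
          ≤ ∑ e ∈ univ.image fun k => s(a, k), δ n e ^ 2 :=
            sum_le_sum_of_subset_of_nonneg h6 fun e _ _ => sq_nonneg _
        _ = ∑ k, δ n s(a, k) ^ 2 := by
            rw [sum_image]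
            intro x _ y _ hxy
            exact Sym2.congr_right.1 hxy
    have h7 : ∑ e, δ' e ^ 2 ≤ ∑ e ∈ univ.filter (fun e : Sym2 (Fin n) => i ∈ e), δ n e ^ 2 +
        ∑ e ∈ univ.filter (fun e : Sym2 (Fin n) => j ∈ e), δ n e ^ 2 := by
      rw [sum_filter, sum_filter, ← sum_add_distrib]
      refine sum_le_sum fun e _ => ?_
      simp only [hδ', hp]
      have h8 := sq_nonneg (δ n e)
      by_cases hi' : i ∈ e <;> by_cases hj' : j ∈ e <;> simp [hi', hj'] <;> linarith
    linarith [h5 i, h5 j]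
  have hhalf : ∀ e, |δ' e| ≤ 1 / 2 := by
    intro e
    have row : ∀ a : Fin n, ∑ k, δ n s(a, k) ^ 2 ≤ 1 / 4 → a ∈ e → |δ n e| ≤ 1 / 2 := by
      intro a ha hae
      obtain ⟨c, rfl⟩ := hae
      have h8 : δ n s(a, c) ^ 2 ≤ ∑ k, δ n s(a, k) ^ 2 :=
        single_le_sum (f := fun k => δ n s(a, k) ^ 2) (fun k _ => sq_nonneg _) (mem_univ c)
      refine abs_le_of_sq_le_sq' ?_ (by norm_num) |> fun h => abs_le.2 h
      linarith
    simp only [hδ']
    split_ifs with hpe
    · rcases hpe with h9 | h9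
      · exact row i hi h9
      · exact row j hj h9
    · simp
  have hmar : prob (δ n) (EqRows i j) = prob δ' (EqRows i j) := by
    refine prob_marginal p _ _ (fun e he => by simp only [hδ']; rw [if_pos he]) _ fun b b' hb => ?_
    have h10 : ∀ k, b s(i, k) = b' s(i, k) := fun k => hb _ (Or.inl (Sym2.mem_mk_left i k))
    have h11 : ∀ k, b s(j, k) = b' s(j, k) := fun k => hb _ (Or.inr (Sym2.mem_mk_left j k))
    constructor
    · intro h k; rw [← h10, ← h11]; exact h k
    · intro h k; rw [h10, h11]; exact h k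
  have h12 := prob_zero_le_of_biased hhalf (EqRows i j) (Real.exp (ε / 2 * n)) (Real.exp_pos _) r
  have h13 := prob_eqRows i j hij
  have h14 : Real.exp ((2 * r + (r : ℝ) ^ 2 / 2) * ∑ e, δ' e ^ 2) / Real.exp (ε / 2 * n) ^ r ≤
      (1 / 2 : ℝ) ^ n / 2 := by
    have e0 : (1 / 2 : ℝ) ^ n / 2 = Real.exp (-(Real.log 2 * n) - Real.log 2) := by
      rw [Real.exp_sub, Real.exp_neg, Real.exp_log (by norm_num), mul_comm (Real.log 2), Real.exp_nat_mul,
        Real.exp_log (by norm_num), one_div, inv_pow]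
    rw [e0, ← Real.exp_nat_mul, ← Real.exp_sub]
    refine Real.exp_le_exp.2 ?_
    have h15 : (2 * r + (r : ℝ) ^ 2 / 2) * ∑ e, δ' e ^ 2 ≤ K := by
      have h20 := mul_le_mul_of_nonneg_left hsq (show (0 : ℝ) ≤ 2 * r + (r : ℝ) ^ 2 / 2 by positivity)
      rw [hK]
      linarith
    have h16 := mul_le_mul_of_nonneg_right hr' hn0.le
    nlinarith
  have h15 : (1 / 2 : ℝ) ^ n / 2 ≤ Real.exp (ε / 2 * n) * prob δ' (EqRows i j) := by linarith
  have h16 : prob (δ n) (EqRows i j) ≤ prob (δ n) {b | (M n b).det = 0} :=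
    prob_mono (hδ n) fun b hb => hM n i j hij b hb
  refine le_trans ?_ h16
  rw [hmar]
  have e0 : (1 / 2 : ℝ) ^ n / 2 = Real.exp (-(Real.log 2 * n) - Real.log 2) := by
    rw [Real.exp_sub, Real.exp_neg, Real.exp_log (by norm_num), mul_comm (Real.log 2), Real.exp_nat_mul,
      Real.exp_log (by norm_num), one_div, inv_pow]
  rw [e0] at h15
  have h17 : Real.exp (-(ε / 2 * n)) * Real.exp (-(Real.log 2 * n) - Real.log 2) ≤ prob δ' (EqRows i j) := by
    rw [Real.exp_neg, inv_mul_le_iff₀ (Real.exp_pos _)]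
    exact h15
  refine le_trans ?_ h17
  rw [← Real.exp_add]
  refine Real.exp_le_exp.2 ?_
  nlinarith

end Vale.Agent.P160.H462
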