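import Vale.Agent.P160.H462.Defs

/-! # P160: the events of the robust theorem are invariant under permutations -/

open Finset

namespace Vale.Agent.P160.H462

namespace Perm15

variable {n : ℕ} {M : Bits n → Matrix (Fin n) (Fin n) ℤ} (σ : Equiv.Perm (Fin n))

/-- The preimage of `T` under `σ`. -/
def pre (T : Finset (Fin n)) : Finset (Fin n) := T.map σ.symm.toEmbedding

lemma mem_pre {T : Finset (Fin n)} {i : Fin n} : i ∈ pre σ T ↔ σ i ∈ T := by
  unfold pre
  simp only [mem_map_equiv, Equiv.symm_symm]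

lemma card_pre (T : Finset (Fin n)) : (pre σ T).card = T.card := card_map _

/-- The bijection between the two index sets. -/
def eqv (T : Finset (Fin n)) : pre σ T ≃ T :=
  σ.subtypeEquiv fun _ => mem_pre σ

lemma prin_submatrix {R : Type} (A : Matrix (Fin n) (Fin n) R) (T : Finset (Fin n)) :
    prin (A.submatrix σ σ) (pre σ T) = (prin A T).submatrix (eqv σ T) (eqv σ T) := by
  ext i j
  rfl

lemma card_diff (b b' : Bits n) :
    (univ.filter fun e : Sym2 (Fin n) => b (e.map σ) ≠ b' (e.map σ)).card =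
      (univ.filter fun e => b e ≠ b' e).card := by
  refine card_bij (fun e _ => e.map σ) ?_ ?_ ?_
  · intro e he
    rw [mem_filter] at he ⊢
    exact ⟨mem_univ _, he.2⟩
  · intro e _ e' _ h
    exact Sym2.map.injective σ.injective h
  · intro e he
    rw [mem_filter] at he
    have h1 : (e.map σ.symm).map σ = e := by
      rw [Sym2.map_map, Equiv.self_comp_symm, Sym2.map_id]
      rfl
    refine ⟨e.map σ.symm, ?_, h1⟩
    rw [mem_filter, h1]
    exact ⟨mem_univ _, he.2⟩

lemma perm_fragile (hM : ∀ b : Bits n, M (fun e => b (e.map σ)) = (M b).submatrix σ σ)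
    (k l : ℕ) (b : Bits n) (h : b ∈ Fragile M k l) :
    (fun e => b (e.map σ)) ∈ Fragile M k l := by
  obtain ⟨b', hb, T, hT, hd⟩ := h
  refine ⟨fun e => b' (e.map σ), ?_, pre σ T, ?_, ?_⟩
  · rw [card_diff]
    exact hb
  · rw [card_pre]
    exact hT
  · rw [hM, prin_submatrix, Matrix.det_submatrix_equiv_self]
    exact hd

lemma perm_lowRank (hM : ∀ b : Bits n, M (fun e => b (e.map σ)) = (M b).submatrix σ σ)
    (d : ℕ) (b : Bits n) (h : b ∈ LowRank M d) :
    (fun e => b (e.map σ)) ∈ LowRank M d := by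
  obtain ⟨T, p, hp, hd, hr⟩ := h
  refine ⟨pre σ T, p, hp, hd, ?_⟩
  rw [hM, prin_submatrix, card_pre]
  have : ((prin (M b) T).submatrix (eqv σ T) (eqv σ T)).map (Int.cast : ℤ → ZMod p) =
      ((prin (M b) T).map (Int.cast : ℤ → ZMod p)).submatrix (eqv σ T) (eqv σ T) := rfl
  rw [this, Matrix.rank_submatrix]
  exact hr

lemma perm_deficient (hM : ∀ b : Bits n, M (fun e => b (e.map σ)) = (M b).submatrix σ σ)
    (β : ℝ) (k : ℕ) (b : Bits n) (h : b ∈ Deficient M β k) :
    (fun e => b (e.map σ)) ∈ Deficient M β k := by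
  obtain ⟨T, hT, hr⟩ := h
  refine ⟨pre σ T, ?_, ?_⟩
  · rw [card_pre]
    exact hT
  rw [hM, prin_submatrix, card_pre]
  have : ((prin (M b) T).submatrix (eqv σ T) (eqv σ T)).map (Int.cast : ℤ → ℚ) =
      ((prin (M b) T).map (Int.cast : ℤ → ℚ)).submatrix (eqv σ T) (eqv σ T) := rfl
  rw [this, Matrix.rank_submatrix]
  exact hr

lemma signMat_perm (b : Bits n) :
    signMat (fun e => b (e.map σ)) = (signMat b).submatrix σ σ := rfl

lemma bitMat_perm (b : Bits n) :
    bitMat (fun e => b (e.map σ)) = (bitMat b).submatrix σ σ := rfl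

end Perm15

theorem perm_fragile_sign {n : ℕ} (k l : ℕ) (σ : Equiv.Perm (Fin n)) (b : Bits n)
    (h : b ∈ Fragile signMat k l) : (fun e => b (e.map σ)) ∈ Fragile signMat k l :=
  Perm15.perm_fragile σ (Perm15.signMat_perm σ) k l b h

theorem perm_fragile_bit {n : ℕ} (k l : ℕ) (σ : Equiv.Perm (Fin n)) (b : Bits n)
    (h : b ∈ Fragile bitMat k l) : (fun e => b (e.map σ)) ∈ Fragile bitMat k l :=
  Perm15.perm_fragile σ (Perm15.bitMat_perm σ) k l b h

theorem perm_lowRank_sign {n : ℕ} (d : ℕ) (σ : Equiv.Perm (Fin n)) (b : Bits n)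
    (h : b ∈ LowRank signMat d) : (fun e => b (e.map σ)) ∈ LowRank signMat d :=
  Perm15.perm_lowRank σ (Perm15.signMat_perm σ) d b h

theorem perm_lowRank_bit {n : ℕ} (d : ℕ) (σ : Equiv.Perm (Fin n)) (b : Bits n)
    (h : b ∈ LowRank bitMat d) : (fun e => b (e.map σ)) ∈ LowRank bitMat d :=
  Perm15.perm_lowRank σ (Perm15.bitMat_perm σ) d b h

theorem perm_deficient_sign {n : ℕ} (β : ℝ) (k : ℕ) (σ : Equiv.Perm (Fin n)) (b : Bits n)
    (h : b ∈ Deficient signMat β k) : (fun e => b (e.map σ)) ∈ Deficient signMat β k :=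
  Perm15.perm_deficient σ (Perm15.signMat_perm σ) β k b h

theorem perm_deficient_bit {n : ℕ} (β : ℝ) (k : ℕ) (σ : Equiv.Perm (Fin n)) (b : Bits n)
    (h : b ∈ Deficient bitMat β k) : (fun e => b (e.map σ)) ∈ Deficient bitMat β k :=
  Perm15.perm_deficient σ (Perm15.bitMat_perm σ) β k b h

end Vale.Agent.P160.H462
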