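import Vale.Agent.P160.H462.Deficient
import Vale.Agent.P160.H462.Biased2
import Vale.Agent.P160.H462.Perm15

/-! # P160 / H462: the robust and universal form of the rate `1/2` -/

open Finset Filter Topology

namespace Vale.Agent.P160.H462

open Vale.Agent.P160.Half

theorem half_pow_eq (n : ℕ) : (1 / 2 : ℝ) ^ n = Real.exp (-(Real.log 2 * n)) := by
  rw [Real.exp_neg, mul_comm, Real.exp_nat_mul, Real.exp_log (by norm_num), one_div, inv_pow]

theorem small_of_le_half_pow (E : ∀ n, Set (Bits n))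
    (h : ∀ᶠ n : ℕ in atTop, prob (0 : Sym2 (Fin n) → ℝ) (E n) ≤ (1 / 2) ^ n) : Small E := by
  intro ε hε
  filter_upwards [h] with n hn
  refine hn.trans ?_
  rw [half_pow_eq]
  refine Real.exp_le_exp.2 ?_
  have : 0 ≤ ε * n := by positivity
  linarith

theorem small_lowRank_sign : Small fun n => LowRank (n := n) signMat 2 :=
  small_of_le_half_pow _ ((eventually_ge_atTop 2).mono fun n hn => lowRank_sign n hn)

theorem small_lowRank_bit : Small fun n => LowRank (n := n) bitMat 1 :=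
  small_of_le_half_pow _ ((eventually_ge_atTop 1).mono fun n hn => lowRank_bit n hn)

/-- the singular matrices are in `Fragile` -/
theorem sing_subset_fragile {n : ℕ} (M : Bits n → Matrix (Fin n) (Fin n) ℤ) (k l : ℕ) :
    {b | (M b).det = 0} ⊆ Fragile M k l := by
  classical
  intro b hb
  refine ⟨b, by simp, univ, by rw [card_univ, Fintype.card_fin]; exact Nat.le_add_right _ _, ?_⟩
  have h1 : prin (M b) univ = (M b).submatrix (Equiv.subtypeUnivEquiv fun x => mem_univ x)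
      (Equiv.subtypeUnivEquiv fun x => mem_univ x) := rfl
  have h2 : (M b).det = 0 := hb
  rw [h1, Matrix.det_submatrix_equiv_self, h2]

theorem robust (M : ∀ n, Bits n → Matrix (Fin n) (Fin n) ℤ) (hM : Nat' M)
    (hS : Small fun n => {b | (M n b).det = 0}) (F : ∀ n, Set (Bits n)) (hF : Small F)
    (hrow : ∀ n (i j : Fin n), i ≠ j → ∀ b ∈ EqRows i j, (M n b).det = 0)
    (k l : ℕ → ℕ) (δ : ∀ n, Sym2 (Fin n) → ℝ)
    (h1 : ∀ n (σ : Equiv.Perm (Fin n)) b, b ∈ Fragile (M n) (k n) (l n) →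
      (fun e => b (e.map σ)) ∈ Fragile (M n) (k n) (l n))
    (h2 : ∀ n (σ : Equiv.Perm (Fin n)) b, b ∈ F n → (fun e => b (e.map σ)) ∈ F n)
    (hk : Tendsto (fun n : ℕ => (k n : ℝ) * Real.log n / n) atTop (𝓝 0))
    (hl : Tendsto (fun n : ℕ => (l n : ℝ) / n) atTop (𝓝 0))
    (hδ : ∀ n e, |δ n e| ≤ 1)
    (hsum : Tendsto (fun n : ℕ => (∑ e ∈ univ.filter (fun e : Sym2 (Fin n) => ¬ e.IsDiag), δ n e ^ 2) / n)
      atTop (𝓝 0))
    (htr : Tendsto (fun n : ℕ => (∑ i : Fin n, δ n s(i, i)) / n) atTop (𝓝 0)) :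
    Tendsto (fun n : ℕ => prob (δ n) (Fragile (M n) (k n) (l n) ∪ F n) ^ (1 / (n : ℝ))) atTop
      (𝓝 (1 / 2)) := by
  have hsum' : Tendsto (fun n : ℕ => (∑ e, off (δ n) e ^ 2) / n) atTop (𝓝 0) := by
    simpa only [sum_off_sq] using hsum
  refine tendsto_root _ (fun n => prob_nonneg (hδ n) _) (fun ε hε => ?_) fun ε hε => ?_
  · refine Small.biased2 (Small.union (fragile_small M hM hS k l hk hl) hF) (fun n σ b hb => ?_) δ hδ
      hsum' htr ε hε
    rcases hb with hb | hb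
    · exact Or.inl (h1 n σ b hb)
    · exact Or.inr (h2 n σ b hb)
  · filter_upwards [lower_diag M hrow δ hδ hsum' ε hε] with n hn
    exact hn.trans (prob_mono (hδ n) ((sing_subset_fragile (M n) (k n) (l n)).trans
      Set.subset_union_left))

theorem main :
    ((Tendsto (fun n : ℕ => q n ^ (1 / (n : ℝ))) atTop (𝓝 (1 / 2)) ∧
      ∀ c : ℝ, 1 / 2 < c → ∀ᶠ n : ℕ in atTop, q n ≤ c ^ n) ∧
      ∀ n : ℕ, q n = prob (0 : Sym2 (Fin n) → ℝ) {b | (signMat b).det = 0}) ∧
    ∀ δ : ∀ n, Sym2 (Fin n) → ℝ, (∀ n e, |δ n e| ≤ 1) →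
      Tendsto (fun n : ℕ => (∑ e ∈ univ.filter (fun e : Sym2 (Fin n) => ¬ e.IsDiag), δ n e ^ 2) / n)
        atTop (𝓝 0) →
      Tendsto (fun n : ℕ => (∑ i : Fin n, δ n s(i, i)) / n) atTop (𝓝 0) →
      (∀ k l : ℕ → ℕ, Tendsto (fun n : ℕ => (k n : ℝ) * Real.log n / n) atTop (𝓝 0) →
        Tendsto (fun n : ℕ => (l n : ℝ) / n) atTop (𝓝 0) →
        Tendsto (fun n : ℕ => prob (δ n) (Fragile signMat (k n) (l n) ∪ LowRank signMat 2) ^
          (1 / (n : ℝ))) atTop (𝓝 (1 / 2)) ∧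
        Tendsto (fun n : ℕ => prob (δ n) (Fragile bitMat (k n) (l n) ∪ LowRank bitMat 1) ^
          (1 / (n : ℝ))) atTop (𝓝 (1 / 2))) ∧
      ∀ β : ℝ, 0 ≤ β → β ≤ 1 / 2 → ∀ ε : ℝ, 0 < ε → ∀ᶠ n : ℕ in atTop, ∀ k : ℕ, 1 ≤ k →
        prob (δ n) (Deficient signMat β k) ≤ (2 : ℝ) ^
          (-((1 - β - Real.binEntropy β / Real.log 2 - ε) * n + (1 / 2 - ε) * (k : ℝ) ^ 2)) ∧
        prob (δ n) (Deficient bitMat β k) ≤ (2 : ℝ) ^
          (-((1 - β - Real.binEntropy β / Real.log 2 - ε) * n + (1 / 2 - ε) * (k : ℝ) ^ 2)) := by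
  refine ⟨⟨Zero685.main, q_eq_prob⟩, fun δ hδ hsum htr => ⟨?_, ?_⟩⟩
  · intro k l hk hl
    exact ⟨robust (fun _ => signMat) nat_sign small_sign _ small_lowRank_sign
        (fun n i j hij b hb => det_of_eqRows_sign hij hb) k l δ
        (fun n σ b hb => perm_fragile_sign (k n) (l n) σ b hb) (fun n σ b hb => perm_lowRank_sign 2 σ b hb)
        hk hl hδ hsum htr,
      robust (fun _ => bitMat) nat_bit small_bit _ small_lowRank_bit
        (fun n i j hij b hb => det_of_eqRows_bit hij hb) k l δ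
        (fun n σ b hb => perm_fragile_bit (k n) (l n) σ b hb) (fun n σ b hb => perm_lowRank_bit 1 σ b hb)
        hk hl hδ hsum htr⟩
  · intro β h0 h1 ε hε
    have hsum' : Tendsto (fun n : ℕ => (∑ e, off (δ n) e ^ 2) / n) atTop (𝓝 0) := by
      simpa only [sum_off_sq] using hsum
    have hc1 : 1 - β - Real.binEntropy β / Real.log 2 ≤ 1 := by
      have h2 : 0 ≤ Real.binEntropy β := Real.binEntropy_nonneg h0 (by linarith)
      have h3 : 0 ≤ Real.binEntropy β / Real.log 2 := div_nonneg h2 log2_pos.le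
      linarith
    have h2 := biased_uniform (fun n k => Deficient (n := n) signMat β k) _ hc1
      (fun ε hε => deficient_le (fun _ => signMat) nat_sign (fun ε hε => corank_sign ε hε corOne) β h0 h1 ε hε)
      (fun n k σ b hb => perm_deficient_sign β k σ b hb) δ hδ hsum' htr ε hε
    have h3 := biased_uniform (fun n k => Deficient (n := n) bitMat β k) _ hc1
      (fun ε hε => deficient_le (fun _ => bitMat) nat_bit (fun ε hε => corank_bit ε hε corOne) β h0 h1 ε hε)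
      (fun n k σ b hb => perm_deficient_bit β k σ b hb) δ hδ hsum' htr ε hε
    filter_upwards [h2, h3] with n h4 h5 k hk
    exact ⟨h4 k hk, h5 k hk⟩

end Vale.Agent.P160.H462
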