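import Vale.Agent.P160.H462.Lower
import Vale.Agent.P160.Half.Fin.Zero685

/-! # P160 / H462: few singular matrices, both alphabets -/

open Finset Filter Topology

namespace Vale.Agent.P160.H462

open Vale.Agent.P160.Half

theorem q_eq_prob (n : ℕ) : End288.q n = prob (0 : Sym2 (Fin n) → ℝ) {b | (signMat b).det = 0} := by
  classical
  rw [End288.q_eq, prob_zero]
  rfl

theorem small_sign : Small fun n => {b : Bits n | (signMat b).det = 0} := by
  intro ε hε
  have h1 : (1 / 2 : ℝ) < Real.exp (-(Real.log 2 - ε)) := by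
    have h2 : (1 / 2 : ℝ) = Real.exp (-Real.log 2) := by
      rw [Real.exp_neg, Real.exp_log (by norm_num)]; norm_num
    rw [h2]
    exact Real.exp_lt_exp.2 (by linarith)
  filter_upwards [Zero685.main.2 _ h1] with n hn
  rw [q_eq_prob, ← Real.exp_nat_mul] at hn
  refine hn.trans (le_of_eq ?_)
  congr 1
  ring

theorem small_bit : Small fun n => {b : Bits n | (bitMat b).det = 0} := by
  classical
  intro ε hε
  have hl := log2_pos
  obtain ⟨n₀, h⟩ := DetCor428.det_of_cor 0 (1 - ε / Real.log 2) le_rfl (by
    have : 0 < ε / Real.log 2 := by positivity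
    linarith) Zero685.cor1_zero
  filter_upwards [eventually_ge_atTop n₀] with n hn
  have h1 := h n hn (Fin n) (Fintype.card_fin n)
  rw [prob_zero, div_le_iff₀ (by positivity)]
  have h2 : (Nat.card {b : Sym2 (Fin n) → Bool // (matZ b).det = 0} : ℝ) =
      ((univ.filter fun b : Bits n => b ∈ {b : Bits n | (bitMat b).det = 0}).card : ℝ) := by
    rw [Nat.card_eq_fintype_card, Fintype.card_subtype]
    rfl
  rw [← h2]
  refine h1.trans (mul_le_mul_of_nonneg_right (le_of_eq ?_) (by positivity))
  rw [Real.rpow_def_of_pos (by norm_num)]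
  congr 1
  field_simp

theorem corOne : End288.CorOne := End288.corOneR_half.1 (by
  have h1 := End288.corOneR_of_cor1 0 Zero685.cor1_zero
  have h2 : (2 : ℝ) ^ (-(1 - (0 : ℝ))) = 1 / 2 := by
    rw [sub_zero, Real.rpow_neg_one]; norm_num
  rw [h2] at h1
  exact h1)

end Vale.Agent.P160.H462
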